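import Mathlib

/-!
# Bounded subgroups of an amalgamated product are conjugate to subgroups of a factor
-/

namespace Vale.Agent.N253

variable {Γ : Type} [Group Γ] (A B : Subgroup Γ)

/-- `Wd k ψ`: `ψ = b₁ a₁ b₂ ⋯ b_k` with `b_i ∈ B \ A` and `a_i ∈ A \ B` -/
inductive Wd : ℕ → Γ → Prop
  | one {b : Γ} : b ∈ B → b ∉ A → Wd 1 b
  | snoc {k : ℕ} {ψ a b : Γ} : Wd k ψ → a ∈ A → a ∉ B → b ∈ B → b ∉ A → Wd (k + 1) (ψ * a * b)

variable {A B}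

theorem Wd.pos {k : ℕ} {ψ : Γ} (h : Wd A B k ψ) : 0 < k := by
  cases h <;> omega

theorem Wd.cat {k l : ℕ} {φ ψ a : Γ} (h : Wd A B k φ) (ha : a ∈ A) (ha' : a ∉ B)
    (h' : Wd A B l ψ) : Wd A B (k + l) (φ * a * ψ) := by
  induction h' with
  | one h1 h2 => exact h.snoc ha ha' h1 h2
  | snoc _ h1 h2 h3 h4 ih => simpa only [mul_assoc, add_assoc] using ih.snoc h1 h2 h3 h4

theorem Wd.inv {k : ℕ} {ψ : Γ} (h : Wd A B k ψ) : Wd A B k ψ⁻¹ := by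
  induction h with
  | one h1 h2 => exact .one (B.inv_mem h1) (by simpa using h2)
  | snoc _ h1 h2 h3 h4 ih =>
    simpa only [mul_inv_rev, mul_assoc, add_comm] using (Wd.one (B.inv_mem h3)
      (by simpa using h4)).cat (A.inv_mem h1) (by simpa using h2) ih

/-- the last letter -/
theorem Wd.last {k : ℕ} {ψ : Γ} (h : Wd A B k ψ) : ∃ b ∈ B, b ∉ A ∧
    (∀ c ∈ B, c ∉ A → Wd A B k (ψ * b⁻¹ * c)) ∧
    (k = 1 ∧ ψ = b ∨ ∃ φ a, Wd A B (k - 1) φ ∧ a ∈ A ∧ a ∉ B ∧ ψ = φ * a * b) := by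
  cases h with
  | one h1 h2 => exact ⟨ψ, h1, h2, fun c h3 h4 => by simpa using .one h3 h4, .inl ⟨rfl, rfl⟩⟩
  | snoc h0 h1 h2 h3 h4 =>
    exact ⟨_, h3, h4, fun c h5 h6 => by simpa using h0.snoc h1 h2 h5 h6,
      .inr ⟨_, _, h0, h1, h2, rfl⟩⟩

theorem Wd.mul_right {k : ℕ} {ψ c : Γ} (h : Wd A B k ψ) (h1 : c ∈ A) (h2 : c ∈ B) :
    Wd A B k (ψ * c) := by
  obtain ⟨b, h3, h4, h5, -⟩ := h.last
  simpa only [mul_assoc, inv_mul_cancel_left] using h5 (b * c) (B.mul_mem h3 h2)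
    (by rwa [A.mul_mem_cancel_right h1])

theorem Wd.mul_left {k : ℕ} {ψ c : Γ} (h : Wd A B k ψ) (h1 : c ∈ A) (h2 : c ∈ B) :
    Wd A B k (c * ψ) := by
  simpa using (h.inv.mul_right (A.inv_mem h1) (B.inv_mem h2)).inv

variable (A B) in
/-- `γ ∈ A ψ A` for a word `ψ` of length `k` -/
def Dc (k : ℕ) (γ : Γ) : Prop := ∃ a ∈ A, ∃ a' ∈ A, ∃ ψ, Wd A B k ψ ∧ γ = a * ψ * a'

theorem Dc.mul {k : ℕ} {γ a a' : Γ} (h : Dc A B k γ) (ha : a ∈ A) (ha' : a' ∈ A) :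
    Dc A B k (a * γ * a') := by
  obtain ⟨c, h1, c', h2, ψ, h3, rfl⟩ := h
  exact ⟨_, A.mul_mem ha h1, _, A.mul_mem h2 ha', ψ, h3, by simp only [mul_assoc]⟩

theorem Wd.dc {k : ℕ} {ψ : Γ} (h : Wd A B k ψ) : Dc A B k ψ :=
  ⟨1, A.one_mem, 1, A.one_mem, ψ, h, by simp⟩

theorem dc_mul {γ b : Γ} (h : γ ∈ A ∨ ∃ k, Dc A B k γ) (hb : b ∈ B) :
    γ * b ∈ A ∨ ∃ k, Dc A B k (γ * b) := by
  by_cases hb' : b ∈ A
  · exact h.imp (A.mul_mem · hb') fun ⟨k, h⟩ => ⟨k, by simpa using h.mul A.one_mem hb'⟩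
  rcases h with h | ⟨k, a, h1, a', h2, ψ, h3, rfl⟩
  · exact .inr ⟨1, by simpa using (Wd.one hb hb').dc.mul h A.one_mem⟩
  by_cases h4 : a' ∈ B
  · obtain ⟨c, h5, -, h6, h7⟩ := h3.last
    have h8 : c * a' * b ∈ B := B.mul_mem (B.mul_mem h5 h4) hb
    by_cases h9 : c * a' * b ∈ A
    · rcases h7 with ⟨-, rfl⟩ | ⟨φ, d, h10, h11, -, rfl⟩
      · exact .inl (by simpa only [mul_assoc] using A.mul_mem h1 h9)
      · exact .inr ⟨_, by simpa only [mul_assoc] using h10.dc.mul h1 (A.mul_mem h11 h9)⟩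
    · exact .inr ⟨k, by simpa [mul_assoc] using (h6 _ h8 h9).dc.mul h1 A.one_mem⟩
  · exact .inr ⟨_, by simpa [mul_assoc] using (h3.snoc h2 h4 hb hb').dc.mul h1 A.one_mem⟩

theorem dc_of_sup {γ : Γ} (h : γ ∈ A ⊔ B) : γ ∈ A ∨ ∃ k, Dc A B k γ := by
  rw [Subgroup.sup_eq_closure] at h
  have h1 : ∀ γ b, b ∈ (A : Set Γ) ∪ B → (γ ∈ A ∨ ∃ k, Dc A B k γ) →
      γ * b ∈ A ∨ ∃ k, Dc A B k (γ * b) := fun γ b hb h => hb.elim
    (fun hb => h.imp (A.mul_mem · hb) fun ⟨k, h⟩ => ⟨k, by simpa using h.mul A.one_mem hb⟩)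
    (dc_mul h)
  induction h using Subgroup.closure_induction_right with
  | one => exact .inl A.one_mem
  | mul_right x _ y hy ih => exact h1 x y hy ih
  | mul_inv_cancel x _ y hy ih => exact h1 x _ (hy.imp A.inv_mem B.inv_mem) ih

/-- conjugation -/
def cj (t : Γ) (K : Subgroup Γ) : Subgroup Γ := K.map (MulAut.conj t).toMonoidHom

theorem mem_cj {t γ : Γ} {K : Subgroup Γ} : γ ∈ cj t K ↔ t⁻¹ * γ * t ∈ K := by
  constructor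
  · rintro ⟨x, hx, rfl⟩
    simpa [mul_assoc] using hx
  · exact fun h => ⟨_, h, by simp [mul_assoc]⟩

theorem cj_cj (s t : Γ) (K : Subgroup Γ) : cj s (cj t K) = cj (s * t) K := by
  ext γ
  simp only [mem_cj, mul_inv_rev, mul_assoc]

theorem amal_step (hAB : ∀ γ, γ ∈ A ⊔ B) {up : Γ → Prop}
    (u1 : ∀ k ψ, ∀ a ∈ A, Wd A B k ψ → up (a * ψ))
    (u2 : ∀ k ψ, ∀ a ∈ A, ∀ a' ∈ A, a' ∉ B → Wd A B k ψ → ¬ up (a * ψ * a')) (u3 : ∀ a ∈ A, ¬ up a)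
    {N : ℕ} {K : Subgroup Γ} (hK : ∀ γ ∈ K, ∀ k, Dc A B k γ → k ≤ N) {a₀ φ₀ : Γ} (ha₀ : a₀ ∈ A)
    (hφ₀ : Wd A B N φ₀) (hφK : a₀ * φ₀ ∈ K) :
    K ≤ B ∨ ∃ t, ∀ γ ∈ cj t K, ∀ k, Dc A B k γ → k < N := by
  have h1 : ∀ a ∈ A, ∀ a' ∈ A, ∀ l ψ, Wd A B l ψ → a * ψ * a' ∈ K → a ∈ B := by
    intro a ha a' ha' l ψ hψ h
    by_contra hn
    have := hK _ (K.mul_mem hφK h) _
      (by simpa only [mul_assoc] using (hφ₀.cat ha hn hψ).dc.mul ha₀ ha')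
    have := hψ.pos
    omega
  have h2 : ∀ γ ∈ K, ∀ l, Dc A B l γ → Wd A B l γ := by
    rintro _ h l ⟨a, ha, a', ha', ψ, hψ, rfl⟩
    refine (hψ.mul_left ha (h1 a ha a' ha' l ψ hψ h)).mul_right ha' ?_
    simpa using h1 _ (A.inv_mem ha') _ (A.inv_mem ha) l _ hψ.inv
      (by simpa only [mul_inv_rev, mul_assoc] using K.inv_mem h)
  have hφ := h2 _ hφK N (by simpa using hφ₀.dc.mul ha₀ A.one_mem)
  generalize a₀ * φ₀ = φ at hφ hφK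
  have h3 : ∀ a ∈ K, a ∈ A → a ∈ B := fun a h ha =>
    h1 a ha 1 A.one_mem N φ hφ (by simpa using K.mul_mem h hφK)
  obtain ⟨t, t1, t2, -, ⟨rfl, -⟩ | ⟨φ', a₁, q1, q2, q3, rfl⟩⟩ := hφ.last
  · refine .inl fun γ h => ?_
    rcases dc_of_sup (hAB γ) with h4 | ⟨k, h4⟩
    · exact h3 γ h h4
    · have h5 := hK γ h k h4
      obtain ⟨b, h6, -, -, ⟨-, rfl⟩ | ⟨φ', _, h7, -⟩⟩ := (h2 γ h k h4).last
      · exact h6
      · have := h7.pos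
        omega
  have hN := q1.pos
  have h4 : ∀ l ψ a, ∀ b ∈ B, Wd A B l ψ → a ∈ A → a ∉ B → ψ * a * b ∈ K → b * t⁻¹ ∈ A := by
    intro l ψ a b hb hψ ha ha' h
    by_contra hn
    have h5 := hK _ (K.mul_mem h (K.inv_mem hφK)) _ (by
      simpa only [mul_assoc, mul_inv_rev] using ((hψ.snoc ha ha' (B.mul_mem hb (B.inv_mem t1))
        hn).cat (A.inv_mem q2) (by simpa using q3) q1.inv).dc)
    have := hψ.pos
    omega
  have h5 : ∀ γ ∈ cj t K, ¬ up γ := by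
    intro γ h
    rw [mem_cj] at h
    obtain ⟨γ, rfl⟩ : ∃ δ, γ = t * δ * t⁻¹ := ⟨t⁻¹ * γ * t, by simp [mul_assoc]⟩
    replace h : γ ∈ K := by simpa [mul_assoc] using h
    have h6 : γ ∈ B → ¬ up (t * γ * t⁻¹) := fun hb => u3 _ (by
      simpa only [mul_assoc] using h4 _ φ' a₁ (t * γ) (B.mul_mem t1 hb) q1 q2 q3
        (by simpa only [mul_assoc] using K.mul_mem hφK h))
    rcases dc_of_sup (hAB γ) with h7 | ⟨k, h7⟩
    · exact h6 (h3 γ h h7)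
    obtain ⟨b, b1, b2, -, ⟨-, rfl⟩ | ⟨ψ, a, r1, r2, r3, rfl⟩⟩ := (h2 γ h k h7).last
    · exact h6 b1
    have h8 := h4 _ ψ a b b1 r1 r2 r3 h
    have h9 : a * (b * t⁻¹) ∉ B := by
      rwa [B.mul_mem_cancel_right (B.mul_mem b1 (B.inv_mem t1))]
    have b3 : Wd A B 1 b⁻¹ := .one (B.inv_mem b1) (by simpa using b2)
    obtain ⟨c, c1, -, -, ⟨-, h10⟩ | ⟨ψ', a', s1, s2, s3, h10⟩⟩ := r1.inv.last
    · have h11 := h4 _ b⁻¹ a⁻¹ c c1 b3 (A.inv_mem r2) (by simpa using r3)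
        (by simpa only [mul_inv_rev, mul_assoc, ← h10] using K.inv_mem h)
      refine u3 _ ?_
      simpa only [mul_inv_rev, mul_assoc, ← h10, inv_inv] using
        A.mul_mem (A.inv_mem h11) (A.mul_mem r2 h8)
    · have h11 := h4 _ _ a' c c1 (b3.cat (A.inv_mem r2) (by simpa using r3) s1) s2 s3
        (by simpa only [mul_inv_rev, mul_assoc, h10] using K.inv_mem h)
      rw [inv_eq_iff_eq_inv] at h10
      simpa only [mul_inv_rev, mul_assoc, h10, inv_inv] using u2 _ _ _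
        (A.mul_mem (A.inv_mem h11) (A.inv_mem s2)) _ (A.mul_mem r2 h8) h9 s1.inv
  refine .inr ⟨t, ?_⟩
  rintro _ h k ⟨a, ha, a', ha', ψ, hψ, rfl⟩
  have h6 : a' ∉ B := fun hb => h5 _ h (by
    simpa only [mul_assoc] using u1 _ _ a ha (hψ.mul_right ha' hb))
  have h7 : a ∉ B := fun hb => h5 _ ((cj t K).inv_mem h) (by
    simpa only [mul_assoc, mul_inv_rev] using u1 _ _ _ (A.inv_mem ha')
      (hψ.inv.mul_right (A.inv_mem ha) (B.inv_mem hb)))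
  have h8 := hK _ (mem_cj.1 h) _ (by
    simpa only [mul_assoc] using (((Wd.one (B.inv_mem t1) (by simpa using t2)).cat ha h7
      hψ).snoc ha' h6 t1 t2).dc)
  omega

theorem amal (hAB : ∀ γ, γ ∈ A ⊔ B) {up : Γ → Prop}
    (u1 : ∀ k ψ, ∀ a ∈ A, Wd A B k ψ → up (a * ψ))
    (u2 : ∀ k ψ, ∀ a ∈ A, ∀ a' ∈ A, a' ∉ B → Wd A B k ψ → ¬ up (a * ψ * a')) (u3 : ∀ a ∈ A, ¬ up a)
    (N : ℕ) (K : Subgroup Γ) (hK : ∀ γ ∈ K, ∀ k, Dc A B k γ → k < N) :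
    ∃ t, cj t K ≤ A ∨ cj t K ≤ B := by
  induction N generalizing K with
  | zero => exact ⟨1, .inl fun γ h => (dc_of_sup (hAB γ)).resolve_right fun ⟨k, h'⟩ =>
      absurd (hK γ (by simpa using mem_cj.1 h) k h') (by omega)⟩
  | succ N ih =>
    by_cases h : ∃ γ ∈ K, Dc A B N γ
    · obtain ⟨_, h1, a, ha, a', ha', ψ, hψ, rfl⟩ := h
      rcases amal_step hAB u1 u2 u3 (K := cj a' K) (fun γ h k hk => Nat.le_of_lt_succ
        (hK _ (mem_cj.1 h) k (hk.mul (A.inv_mem ha') ha'))) (A.mul_mem ha' ha) hψ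
        (mem_cj.2 (by simpa [mul_assoc] using h1)) with h2 | ⟨t, h2⟩
      · exact ⟨a', .inr h2⟩
      · obtain ⟨s, hs⟩ := ih _ h2
        exact ⟨_, by simpa only [cj_cj] using hs⟩
    · refine ih K fun γ h1 k h2 => lt_of_le_of_ne (Nat.le_of_lt_succ (hK γ h1 k h2)) ?_
      rintro rfl
      exact h ⟨γ, h1, h2⟩

end Vale.Agent.N253
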