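import Vale.Agent.P253K97.Defs
import Mathlib.LinearAlgebra.UnitaryGroup
import Mathlib.Algebra.MvPolynomial.Eval
import Mathlib.GroupTheory.PGroup

/-! Complex tangent vectors, and holomorphic isometries. -/

namespace Vale.Agent.N253

open scoped Manifold
open Bundle Vale.Agent.P253K

noncomputable section

/-- The complex multilinear extension of `R`; a pair `X` stands for the vector `X 0 + i X 1`. -/
def evC {V : Type} [AddCommGroup V] [Module ℝ V] (R : Lin4 V) (X Y Z W : Fin 2 → V) : ℂ :=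
  ∑ a : Fin 2, ∑ b : Fin 2, ∑ c : Fin 2, ∑ d : Fin 2,
    Complex.I ^ (a.val + b.val + c.val + d.val) * (ev R (X a) (Y b) (Z c) (W d) : ℂ)

/-- the complex conjugate `X 0 - i X 1` -/
def bar {V : Type} [AddCommGroup V] (X : Fin 2 → V) : Fin 2 → V := ![X 0, -X 1]

variable {E : Type} [NormedAddCommGroup E] [NormedSpace ℂ E]
  {M : Type} [TopologicalSpace M] [ChartedSpace E M]

/-- `X` is of type (1,0): `J X = i X`. -/
def T10 {x : M} (X : Fin 2 → Tan E x) : Prop := J (X 0) = -X 1 ∧ J (X 1) = X 0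

/-- `R(X, bar X, Y, bar Y) > 0` for all nonzero `X`, `Y` of type (1,0). -/
def PosBisecC (Rm : Four E M) : Prop :=
  ∀ (x : M) (X Y : Fin 2 → Tan E x), T10 X → T10 Y → X ≠ 0 → Y ≠ 0 →
    ∃ r : ℝ, 0 < r ∧ evC (Rm x) X (bar X) Y (bar Y) = r

variable (E) in
/-- `φ` is a holomorphic isometry: `φ` and its inverse are holomorphic, and `dφ` preserves `g`. -/
def HolIsom [Met E M] (φ : Equiv.Perm M) : Prop :=
  MDifferentiable 𝓘(ℂ, E) 𝓘(ℂ, E) φ ∧ MDifferentiable 𝓘(ℂ, E) 𝓘(ℂ, E) φ.symm ∧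
    ∀ (x : M) (v w : Tan E x), inner ℝ (dif E φ x v) (dif E φ x w) = inner ℝ v w

variable (E) in
/-- `H` is a group of holomorphic isometries. -/
def Isoms [Met E M] (H : Subgroup (Equiv.Perm M)) : Prop := ∀ φ ∈ H, HolIsom E φ

variable (E) in
/-- Through `F`, every holomorphic isometry acts as a unitary matrix. -/
def Unitary [Met E M] {N : ℕ} (F : M → Fin N → ℂ) : Prop :=
  ∀ φ : Equiv.Perm M, HolIsom E φ →
    ∃ U ∈ Matrix.unitaryGroup (Fin N) ℂ, ∀ x, F (φ x) = U.mulVec (F x)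

variable (E) in
/-- Every holomorphic function invariant under `H` is constant. -/
def NoInv (H : Subgroup (Equiv.Perm M)) : Prop :=
  ∀ h : M → ℂ, MDifferentiable 𝓘(ℂ, E) 𝓘(ℂ, ℂ) h → (∀ φ ∈ H, ∀ x, h (φ x) = h x) →
    ∀ x y, h x = h y

/-- the value at `z` of the polynomial map `P` -/
def pev {n N : ℕ} (P : Fin N → MvPolynomial (Fin n) ℂ) (z : Fin n → ℂ) : Fin N → ℂ :=
  fun k => MvPolynomial.eval z (P k)

variable (E) in
/-- The group `G` of the holomorphic isometries, seen through `F : M → ℂⁿ`. (2) `G` is compact.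
(3) It acts unitarily on a polynomial embedding of `ℂⁿ` with a linear left inverse. (4) It acts
unitarily on `ℂⁿ` if `n ≤ 2` or if a commutative subgroup has no invariant function. (5) Its
`p`-subgroups fix a point. (6) Its commutative subgroups have a finite orbit, a point if they are
divisible. -/
def Act [Met E M] {n : ℕ} (F : M → Fin n → ℂ) : Prop :=
  IsCompact {f : C(M, M) | ∃ φ, HolIsom E φ ∧ ∀ x, f x = φ x} ∧
  (∃ (N : ℕ) (P : Fin N → MvPolynomial (Fin n) ℂ) (L : Matrix (Fin n) (Fin N) ℂ),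
    LinearIndependent ℂ P ∧ (∀ z, L.mulVec (pev P z) = z) ∧ Unitary E fun x => pev P (F x)) ∧
  ((n ≤ 2 ∨ ∃ H : Subgroup (Equiv.Perm M), Isoms E H ∧ IsMulCommutative H ∧ NoInv E H) →
    Unitary E F) ∧
  ∀ H : Subgroup (Equiv.Perm M), Isoms E H →
    (∀ p : ℕ, p.Prime → IsPGroup p H → ∃ x, ∀ φ ∈ H, φ x = x) ∧
    (IsMulCommutative H → ∃ x, {y | ∃ φ ∈ H, φ x = y}.Finite ∧
      ((∀ φ ∈ H, ∀ m : ℕ, 0 < m → ∃ ψ ∈ H, ψ ^ m = φ) → ∀ φ ∈ H, φ x = x))

end

end Vale.Agent.N253
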