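import Vale.Agent.P253Y.H2.Fix

/-!
# Fixed points of `p`-groups and finite orbits of diagonal groups of polynomial maps
-/

open MvPolynomial Vale.Agent.P253Y.H2.Fx

namespace Vale.Agent.N253

theorem eval_bind {σ R : Type} [CommRing R] (z : σ → R) (P : σ → MvPolynomial σ R)
    (Q : MvPolynomial σ R) : eval z (bind₁ P Q) = eval (fun i => eval z (P i)) Q :=
  eval₂Hom_bind₁ _ _ _ _

theorem abs_fix {α K : Type} [Group K] {p : ℕ} (hp : p.Prime) (hK : IsPGroup p K)
    (F : K → α → α) (h1 : ∀ w, F 1 w = w) (hm : ∀ g h w, F (g * h) w = F g (F h w))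
    (hc : ¬ p ∣ Nat.card α) : ∃ z, ∀ g, F g z = z := by
  have := Fact.mk hp
  let _ : MulAction K α := { smul := F, one_smul := h1, mul_smul := hm }
  exact hK.nonempty_fixed_point_of_prime_not_dvd_card α hc

theorem fin_fix {σ R K : Type} [Fintype σ] [CommRing R] [Finite R] [Group K] {p : ℕ}
    (hp : p.Prime) (hu : IsUnit (p : R)) (hK : IsPGroup p K) (P : K → σ → MvPolynomial σ R)
    (h1 : ∀ i, P 1 i = X i) (hm : ∀ g h i, P (g * h) i = bind₁ (P h) (P g i)) :
    ∃ z, ∀ g i, eval z (P g i) = z i := by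
  classical
  have := Fact.mk hp
  have := Fintype.ofFinite R
  obtain ⟨z, hz⟩ := abs_fix hp hK (fun g (w : σ → R) i => eval w (P g i))
    (fun w => funext fun i => by rw [h1, eval_X])
    (fun g h w => funext fun i => by rw [hm, eval_bind]) fun h3 => by
    rw [Nat.card_eq_fintype_card, Fintype.card_fun] at h3
    exact (isUnit_iff_not_dvd_char R p).1 hu
      ((prime_dvd_char_iff_dvd_card p).2 (hp.dvd_of_dvd_pow h3))
  exact ⟨z, fun g i => congrFun (hz g) i⟩

theorem pfix {n p : ℕ} (hp : p.Prime) {H : Type} [Group H] (hH : IsPGroup p H)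
    (f : H → (Fin n → ℂ) → Fin n → ℂ) (f1 : ∀ z, f 1 z = z) (fm : ∀ g h z, f (g * h) z = f g (f h z))
    (hf : ∀ h i, ∃ R : MvPolynomial (Fin n) ℂ, ∀ z, f h z i = eval z R) :
    ∃ z, ∀ h, f h z = z := by
  classical
  choose P hP using hf
  have P1 : ∀ i, P 1 i = X i := fun i => MvPolynomial.funext fun z => by rw [← hP, f1, eval_X]
  have Pm : ∀ g h i, P (g * h) i = bind₁ (P h) (P g i) := fun g h i =>
    MvPolynomial.funext fun z => by rw [← hP, fm, hP, eval_bind, funext fun j => hP h j z]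
  by_contra hn
  obtain ⟨a, ha⟩ : ∃ a : H × Fin n →₀ MvPolynomial (Fin n) ℂ,
      (a.sum fun x b => b * (P x.1 x.2 - X x.2)) = 1 := by
    refine Finsupp.mem_ideal_span_range_iff_exists_finsupp.1 ((Ideal.eq_top_iff_one _).1 ?_)
    by_contra h1
    obtain ⟨M, h2, h3⟩ := Ideal.exists_le_maximal _ h1
    obtain ⟨z, rfl⟩ := isMaximal_iff_eq_vanishingIdeal_singleton.1 h2
    refine hn ⟨z, fun h => funext fun i => ?_⟩
    have := (mem_vanishingIdeal_singleton_iff z _).1 (h3 (Ideal.subset_span ⟨(h, i), rfl⟩))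
    rw [map_sub, aeval_X, sub_eq_zero] at this
    exact (hP h i z).trans this
  let s : Finset ℂ := insert (p : ℂ)⁻¹
    (a.support.biUnion fun x => (a x).coeffs ∪ Finset.univ.biUnion fun i => (P x.1 i).coeffs)
  let A := Algebra.adjoin ℤ (s : Set ℂ)
  have : Algebra.FiniteType ℤ A := (Subalgebra.fg_iff_finiteType A).1 ⟨s, rfl⟩
  have h1 : ∀ Q : MvPolynomial (Fin n) ℂ, Q.coeffs ⊆ s → ∃ Q', map (algebraMap A ℂ) Q' = Q :=
    fun Q hQ => mem_range_map_iff_coeffs_subset.2 fun x hx =>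
      ⟨⟨x, Algebra.subset_adjoin (hQ hx)⟩, rfl⟩
  have h2 := map_injective (σ := Fin n) (algebraMap A ℂ) Subtype.val_injective
  let K₀ : Submonoid H :=
    { carrier := {h | ∀ i, ∃ Q', map (algebraMap A ℂ) Q' = P h i}
      one_mem' := fun i => ⟨X i, by rw [map_X, P1]⟩
      mul_mem' := fun {g h} hg hh i => by
        choose Q hQ using hh
        obtain ⟨Q', hQ'⟩ := hg i
        exact ⟨bind₁ Q Q', by rw [map_bind₁, Pm, funext hQ, hQ']⟩ }
  let K : Subgroup H :=
    { K₀ with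
      inv_mem' := fun {g} hg => by
        obtain ⟨k, hk⟩ := hH g
        have h3 : g⁻¹ = g ^ (p ^ k - 1) := by
          refine inv_eq_of_mul_eq_one_left ?_
          rw [← pow_succ, Nat.sub_add_cancel (Nat.one_le_pow _ _ hp.pos), hk]
        rw [h3]
        exact K₀.pow_mem hg _ }
  choose P' hP' using fun g : K => g.2
  have P1' : ∀ i, P' 1 i = X i := fun i => h2 (by rw [hP', map_X]; exact P1 i)
  have Pm' : ∀ g h i, P' (g * h) i = bind₁ (P' h) (P' g i) := fun g h i => h2 (by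
    rw [hP', map_bind₁, funext (hP' h), hP']; exact Pm _ _ i)
  have hK : ∀ x : a.support, x.1.1 ∈ K := fun x i => h1 _ fun y hy => Finset.mem_insert_of_mem
    (Finset.mem_biUnion.2 ⟨x.1, x.2, Finset.mem_union_right _
      (Finset.mem_biUnion.2 ⟨i, Finset.mem_univ i, hy⟩)⟩)
  choose a' ha' using fun x : a.support => h1 (a x) fun y hy => Finset.mem_insert_of_mem
    (Finset.mem_biUnion.2 ⟨x.1, x.2, Finset.mem_union_left _ hy⟩)
  have h4 : ∑ x : a.support, a' x * (P' ⟨x.1.1, hK x⟩ x.1.2 - X x.1.2) = 1 := h2 (by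
    simp only [map_sum, map_mul, map_sub, map_X, map_one, hP', ha']
    rw [← ha, Finsupp.sum, ← Finset.sum_coe_sort a.support])
  have h5 : IsUnit (p : A) := IsUnit.of_mul_eq_one
    ⟨_, Algebra.subset_adjoin (Finset.mem_insert_self _ _)⟩
    (Subtype.ext (mul_inv_cancel₀ (Nat.cast_ne_zero.2 hp.ne_zero)))
  obtain ⟨m, hm⟩ := Ideal.exists_maximal A
  let _ := Ideal.Quotient.field m
  have := finite' (Ideal.Quotient.mk m) Ideal.Quotient.mk_surjective
  obtain ⟨z, hz⟩ := fin_fix hp (by simpa using h5.map (Ideal.Quotient.mk m)) (hH.to_subgroup K)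
    (fun g i => map (Ideal.Quotient.mk m) (P' g i)) (fun i => by rw [P1', map_X])
    fun g h i => by rw [Pm', map_bind₁]
  have h6 := congrArg (fun Q => eval z (map (Ideal.Quotient.mk m) Q)) h4
  simp [hz] at h6

open Matrix

variable {ι : Type} [Fintype ι]

/-- the monomial with exponents `α` -/
def mon {G : Type} [CommGroup G] (α : ι →₀ ℕ) : (ι → G) →* G where
  toFun t := ∏ j, t j ^ α j
  map_one' := by simp
  map_mul' s t := by simp [mul_pow, Finset.prod_mul_distrib]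

theorem mon_apply {G : Type} [CommGroup G] (α : ι →₀ ℕ) (t : ι → G) :
    mon α t = ∏ j, t j ^ α j := rfl

theorem eval_scal (F : MvPolynomial ι ℂ) (t : ι → ℂˣ) (y : ι → ℂ) :
    eval (fun j => t j * y j) F =
      ∑ α ∈ F.support, (F.coeff α * ∏ j, y j ^ α j) * (mon α t : ℂˣ) := by
  rw [eval_eq']
  refine Finset.sum_congr rfl fun α _ => ?_
  simp only [mon_apply, mul_pow, Finset.prod_mul_distrib, Units.coe_prod, Units.val_pow_eq_pow_val]
  ring

theorem eval_tor {H : Type} [Group H] (χ : ι → H →* ℂˣ) (F : MvPolynomial ι ℂ)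
    (y : ι → ℂ) (hF : ∀ h, eval (fun j => χ j h * y j) F = 0) (t : ι → ℂˣ)
    (ht : ∀ α β, mon α χ = mon β χ → mon α t = mon β t) : eval (fun j => t j * y j) F = 0 := by
  classical
  let u : (ι →₀ ℕ) → H →* ℂ := fun α => (Units.coeHom ℂ).comp (mon α χ)
  have hu : ∀ α β, u α = u β → mon α χ = mon β χ := fun α β h =>
    MonoidHom.ext fun g => Units.ext (DFunLike.congr_fun h g)
  let c : (H →* ℂ) →₀ ℂ := ∑ α ∈ F.support, Finsupp.single (u α) (F.coeff α * ∏ j, y j ^ α j)
  have hc : c = 0 := by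
    refine linearIndependent_iff.1 (linearIndependent_monoidHom H ℂ) c ?_
    funext h
    have h1 := hF h
    rw [eval_scal F (fun j => χ j h) y] at h1
    simp only [c, map_sum, Finsupp.linearCombination_single, Finset.sum_apply, Pi.smul_apply,
      smul_eq_mul, Pi.zero_apply]
    rw [← h1]
    refine Finset.sum_congr rfl fun α _ => ?_
    simp [u, mon_apply]
  let τ : (H →* ℂ) → ℂ := fun l => if h : ∃ α, u α = l then (mon h.choose t : ℂˣ) else 0
  have hτ : ∀ α, τ (u α) = (mon α t : ℂˣ) := fun α => by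
    have h : ∃ β, u β = u α := ⟨α, rfl⟩
    simp only [τ, dif_pos h]
    rw [ht _ _ (hu _ _ h.choose_spec)]
  have h2 := congrArg (Finsupp.linearCombination ℂ τ) hc
  simp only [c, map_sum, Finsupp.linearCombination_single, smul_eq_mul, map_zero, hτ] at h2
  rw [eval_scal, h2]

theorem exists_fun {G : Type} [CommGroup G] (χ : ι → G) (k : ι)
    (hk : ¬ IsOfFinOrder (χ k)) : ∃ l : ι → ℤ, l k ≠ 0 ∧
      ∀ α β, mon α χ = mon β χ → ∑ j, l j * α j = ∑ j, l j * β j := by
  let S : Submodule ℤ (Additive G) := Submodule.span ℤ (Set.range fun j => Additive.ofMul (χ j))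
  have : Module.Finite ℤ S := Module.Finite.span_of_finite ℤ (Set.finite_range _)
  let x : ι → S := fun j => ⟨Additive.ofMul (χ j), Submodule.subset_span ⟨j, rfl⟩⟩
  let q := (Submodule.torsion ℤ S).mkQ
  have h1 : q (x k) ≠ 0 := fun h => by
    obtain ⟨⟨m, hm⟩, h2⟩ := (Submodule.Quotient.mk_eq_zero _).1 h
    have h3 : χ k ^ m = 1 := congrArg (fun w : S => Additive.toMul w.1) h2
    exact hk (isOfFinOrder_iff_zpow_eq_one.2 ⟨m, nonZeroDivisors.ne_zero hm, h3⟩)
  obtain ⟨φ, hφ⟩ : ∃ φ : Module.Dual ℤ (S ⧸ Submodule.torsion ℤ S), φ (q (x k)) ≠ 0 := by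
    by_contra h
    push Not at h
    exact h1 ((Module.forall_dual_apply_eq_zero_iff ℤ _).1 h)
  refine ⟨fun j => φ (q (x j)), hφ, fun α β h => ?_⟩
  have h4 : ∀ γ : ι →₀ ℕ, ((∑ j, γ j • x j : S) : Additive G) = Additive.ofMul (mon γ χ) :=
    fun γ => by simp [x, mon_apply, ofMul_prod, ofMul_pow]
  have h5 : (∑ j, α j • x j : S) = ∑ j, β j • x j := Subtype.ext (by rw [h4, h4, h])
  have h6 := congrArg (fun w => φ (q w)) h5
  simpa [mul_comm] using h6

theorem diag {n : ℕ} (P : ι → MvPolynomial (Fin n) ℂ) (L : Matrix (Fin n) ι ℂ)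
    (hL : ∀ z, L *ᵥ (fun k => eval z (P k)) = z) {H : Type} [Group H] (χ : ι → H →* ℂˣ)
    (hX : ∀ h z, ∃ w, ∀ k, eval w (P k) = χ k h * eval z (P k)) :
    ∃ z, ∀ k, eval z (P k) ≠ 0 → IsOfFinOrder (χ k) := by
  classical
  have h0 : ∀ k, ∃ l : ι → ℤ, ¬ IsOfFinOrder (χ k) → l k ≠ 0 ∧
      ∀ α β, mon α χ = mon β χ → ∑ j, l j * α j = ∑ j, l j * β j := fun k => by
    by_cases hk : IsOfFinOrder (χ k)
    · exact ⟨0, fun h => absurd hk h⟩
    · exact (exists_fun χ k hk).imp fun l hl _ => hl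
  choose l hl using h0
  obtain ⟨p, hp1, hp⟩ := Nat.exists_infinite_primes (∑ k, (l k k).natAbs + 1)
  let Q : Subgroup (ι → ℂˣ) :=
    { carrier := {t | (∀ α β, mon α χ = mon β χ → mon α t = mon β t) ∧ t ^ p = 1}
      one_mem' := ⟨fun _ _ _ => by simp, one_pow p⟩
      mul_mem' := fun hs ht => ⟨fun α β h => by rw [map_mul, map_mul, hs.1 α β h, ht.1 α β h],
        by rw [mul_pow, hs.2, ht.2, one_mul]⟩
      inv_mem' := fun ht => ⟨fun α β h => by rw [map_inv, map_inv, ht.1 α β h],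
        by rw [inv_pow, ht.2, inv_one]⟩ }
  have hQ : IsPGroup p Q := fun t => ⟨1, Subtype.ext (by simpa using t.2.2)⟩
  let LP : Fin n → MvPolynomial ι ℂ := fun i => ∑ j, C (L i j) * X j
  have hLP : ∀ y, (fun i => eval y (LP i)) = L *ᵥ y := fun y => by
    funext i
    simp [LP, mulVec, dotProduct]
  have key : ∀ (t : Q) z k, eval (L *ᵥ fun j => t.1 j * eval z (P j)) (P k) =
      t.1 k * eval z (P k) := fun t z k => by
    have h1 : ∀ y, eval y (bind₁ LP (P k) - X k) = eval (L *ᵥ y) (P k) - y k := fun y => by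
      rw [map_sub, eval_X, ← hLP]
      exact congrArg (· - y k) (eval₂Hom_bind₁ _ _ _ _)
    rw [← sub_eq_zero, ← h1]
    refine eval_tor χ _ _ (fun h => ?_) t.1 t.2.1
    obtain ⟨w, hw⟩ := hX h z
    rw [h1, ← funext hw, hL, hw, sub_self]
  obtain ⟨z, hz⟩ := pfix hp hQ (fun t z => L *ᵥ fun j => t.1 j * eval z (P j))
    (fun z => by simpa using hL z)
    (fun s t z => by simp only [key, Subgroup.coe_mul, Pi.mul_apply, Units.val_mul, mul_assoc])
    fun t i => ⟨∑ j, C (L i j * t.1 j) * P j, fun z => by simp [mulVec, dotProduct, mul_assoc]⟩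
  refine ⟨z, fun k hk => ?_⟩
  by_contra hn
  obtain ⟨h1, h2⟩ := hl k hn
  have hζ := Complex.isPrimitiveRoot_exp p hp.ne_zero
  have hζ' := hζ.isUnit_unit hp.ne_zero
  set ζ := (hζ.isUnit hp.ne_zero).unit
  have h3 : ∀ γ, mon γ (fun j => ζ ^ l k j) = ζ ^ ∑ j, l k j * γ j := fun γ => by
    have h := map_prod (zpowersHom ℂˣ ζ) (fun j => Multiplicative.ofAdd (l k j * γ j)) Finset.univ
    rw [← ofAdd_sum] at h
    refine Eq.trans ?_ h.symm
    rw [mon_apply]
    refine Finset.prod_congr rfl fun j _ => ?_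
    rw [zpowersHom_apply, toAdd_ofAdd, _root_.zpow_mul, zpow_natCast]
  let t : Q := ⟨fun j => ζ ^ l k j, fun α β h => by rw [h3, h3, h2 α β h], funext fun j => by
    rw [Pi.pow_apply, ← zpow_natCast, ← _root_.zpow_mul, mul_comm, _root_.zpow_mul, zpow_natCast,
      hζ'.pow_eq_one, _root_.one_zpow, Pi.one_apply]⟩
  have h4 := key t z k
  rw [hz t] at h4
  have h5 : ζ ^ l k k = 1 := Units.ext (mul_right_cancel₀ hk (h4.symm.trans (one_mul _).symm))
  have h6 := Nat.le_of_dvd (Int.natAbs_pos.2 h1)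
    (Int.natCast_dvd.1 ((hζ'.zpow_eq_one_iff_dvd _).1 h5))
  have h7 := Finset.single_le_sum (f := fun k => (l k k).natAbs) (fun _ _ => Nat.zero_le _)
    (Finset.mem_univ k)
  omega

end Vale.Agent.N253
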