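import Vale.Agent.P253Z.ISO

/-!
# The group of holomorphic isometries is closed and compact
-/

open scoped Manifold ContDiff Bundle Topology
open Bundle IsManifold Set Metric Filter Vale.Agent.P253.Mfd Vale.Agent.P253Z
open Vale.Agent.P253Z.Iso
open Vale.Agent.P272.K (Cm Chart)

set_option linter.unusedSectionVars false

noncomputable section

namespace Vale.Agent.N253

section

variable {E : Type} [NormedAddCommGroup E] [NormedSpace ℂ E]

theorem cauchy_est {F : E → E} (hF : Differentiable ℂ F) {z : E} {C : ℝ}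
    (h : ∀ y ∈ closedBall z 1, ‖F y‖ ≤ C) : ‖fderiv ℂ F z‖ ≤ C := by
  refine ContinuousLinearMap.opNorm_le_of_unit_norm
    ((norm_nonneg _).trans (h z (mem_closedBall_self zero_le_one))) fun v hv => ?_
  have h1 : ∀ t : ℂ, HasDerivAt (fun t : ℂ => F (z + t • v)) (fderiv ℂ F (z + t • v) v) t :=
    fun t => (hF _).hasFDerivAt.comp_hasDerivAt t (by
      simpa using ((hasDerivAt_id t).smul_const v).const_add z)
  have h2 := Complex.norm_deriv_le_of_forall_mem_sphere_norm_le (c := 0) (C := C) one_pos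
    (Differentiable.diffContOnCl fun t => (h1 t).differentiableAt) fun t ht => h _ (by
      rw [mem_closedBall, dist_self_add_left, norm_smul, hv, mem_sphere_zero_iff_norm.1 ht, one_mul])
  rw [(h1 0).deriv] at h2
  simpa using h2

theorem weier [FiniteDimensional ℂ E] {ι : Type} {l : Filter ι} [NeBot l] {F : ι → E → E}
    {f : E → E} (hF : ∀ i, Differentiable ℂ (F i)) (hc : Continuous f)
    (hl : ∀ x, Tendsto (fun y : ι × E => F y.1 y.2) (l ×ˢ 𝓝 x) (𝓝 (f x))) (x : E) :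
    DifferentiableAt ℂ f x ∧ Tendsto (fun i => fderiv ℂ (F i) x) l (𝓝 (fderiv ℂ f x)) := by
  have : ProperSpace E := FiniteDimensional.proper ℂ E
  have h1 : TendstoLocallyUniformly F f l := tendstoLocallyUniformly_iff_forall_tendsto.2 fun x =>
    (((hc.tendsto x).comp tendsto_snd).prodMk_nhds (hl x)).mono_right (nhds_le_uniformity (f x))
  have h2 : TendstoUniformlyOn F f l (closedBall x 2) :=
    (tendstoLocallyUniformly_iff_forall_isCompact.1 h1) _ (isCompact_closedBall x 2)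
  have h3 : UniformCauchySeqOn (fun i => fderiv ℂ (F i)) l (ball x 1) := by
    have h4 := SeminormedAddGroup.uniformCauchySeqOn_iff_tendstoUniformlyOn_zero.1
      h2.uniformCauchySeqOn
    rw [SeminormedAddGroup.uniformCauchySeqOn_iff_tendstoUniformlyOn_zero]
    rw [SeminormedAddGroup.tendstoUniformlyOn_zero] at h4 ⊢
    intro ε hε
    filter_upwards [h4 (ε / 2) (half_pos hε)] with i hi z hz
    have h5 : -fderiv ℂ (F i.1) z + fderiv ℂ (F i.2) z = fderiv ℂ (-F i.1 + F i.2) z := by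
      rw [fderiv_add (hF _).neg.differentiableAt (hF _ z), fderiv_neg]
    rw [h5]
    refine (cauchy_est ((hF _).neg.add (hF _)) fun y hy => (hi y ?_).le).trans_lt (half_lt_self hε)
    have := dist_triangle y z x
    rw [mem_closedBall] at hy ⊢
    rw [mem_ball] at hz
    linarith
  have h6 : ∀ z, ∃ g, z ∈ ball x 1 → Tendsto (fun i => fderiv ℂ (F i) z) l (𝓝 g) := fun z => by
    by_cases hz : z ∈ ball x 1
    · exact (cauchy_map_iff_exists_tendsto.1 (h3.cauchy_map hz)).imp fun g hg _ => hg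
    · exact ⟨0, fun h => absurd h hz⟩
  choose g hg using h6
  have h7 := hasFDerivAt_of_tendstoUniformlyOn isOpen_ball (h3.tendstoUniformlyOn_of_tendsto hg)
    (fun i z _ => (hF i z).hasFDerivAt) (fun z _ => h1.tendstoLocallyUniformlyOn.tendsto_at
      (Set.mem_univ z)) (mem_ball_self one_pos)
  exact ⟨h7.differentiableAt, h7.fderiv ▸ hg x (mem_ball_self one_pos)⟩

theorem cont_conv {M ι : Type} [MetricSpace M] {l : Filter ι} {φ : ι → M → M} {f : M → M}
    (hφ : ∀ i x y, dist (φ i x) (φ i y) ≤ dist x y) (hl : ∀ x, Tendsto (fun i => φ i x) l (𝓝 (f x)))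
    (x : M) : Tendsto (fun y : ι × M => φ y.1 y.2) (l ×ˢ 𝓝 x) (𝓝 (f x)) := by
  refine tendsto_iff_dist_tendsto_zero.2 (squeeze_zero (fun _ => dist_nonneg)
    (g := fun y => dist y.2 x + dist (φ y.1 x) (f x)) (fun y => ?_) ?_)
  · exact (dist_triangle _ (φ y.1 x) _).trans (add_le_add_left (hφ _ _ _) _)
  · simpa using (tendsto_iff_dist_tendsto_zero.1 (tendsto_snd (f := l) (g := 𝓝 x))).add
      (tendsto_iff_dist_tendsto_zero.1 ((hl x).comp tendsto_fst))

theorem cont_lim {M ι : Type} [MetricSpace M] {l : Filter ι} [NeBot l] {φ : ι → M → M} {f : M → M}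
    (hφ : ∀ i x y, dist (φ i x) (φ i y) ≤ dist x y)
    (hl : ∀ x, Tendsto (fun i => φ i x) l (𝓝 (f x))) : Continuous f :=
  (LipschitzWith.mk_one fun x y => le_of_tendsto' ((hl x).dist (hl y)) fun i => hφ i x y).continuous

end

variable {n : ℕ} {M : Type} [MetricSpace M] [ChartedSpace (Cm n) M]
  [IsManifold 𝓘(ℂ, Cm n) 1 M] [IsManifold 𝓘(ℝ, Cm n) ∞ M]
  [RiemannianBundle (fun x : M => TangentSpace 𝓘(ℝ, Cm n) x)]
  [IsContMDiffRiemannianBundle 𝓘(ℝ, Cm n) ∞ (Cm n) (fun x : M => TangentSpace 𝓘(ℝ, Cm n) x)]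
  [IsRiemannianManifold 𝓘(ℝ, Cm n) M] [CompleteSpace M] [ConnectedSpace M] [NoncompactSpace M]
  [MeasurableSpace M] [BorelSpace M]

variable (n) in
/-- the differential of `f` preserves the scalar products -/
def Isom (f : M → M) : Prop := ∀ x (v w : TangentSpace 𝓘(ℝ, Cm n) x),
  inner ℝ (mfderiv 𝓘(ℝ, Cm n) 𝓘(ℝ, Cm n) f x v) (mfderiv 𝓘(ℝ, Cm n) 𝓘(ℝ, Cm n) f x w) = inner ℝ v w

/-- the pull-back of the metric -/
def pb (k : Cm n → M) (z v w : Cm n) : ℝ :=
  inner ℝ (mfderiv 𝓘(ℝ, Cm n) 𝓘(ℝ, Cm n) k z v : TangentSpace 𝓘(ℝ, Cm n) (k z))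
    (mfderiv 𝓘(ℝ, Cm n) 𝓘(ℝ, Cm n) k z w : TangentSpace 𝓘(ℝ, Cm n) (k z))

variable (Φ : M ≃ₘ^1⟮𝓘(ℂ, Cm n), 𝓘(ℂ, Cm n)⟯ Cm n)

/-- the global chart -/
def gc : Chart n M := Φ.toHomeomorph.toOpenPartialHomeomorph

theorem gc_hc : Hc (gc Φ) :=
  OpenPartialHomeomorph.mem_maximalAtlas_of_contMDiffOn _ Φ.contMDiff.contMDiffOn
    Φ.symm.contMDiff.contMDiffOn

theorem hol_iff {f : M → M} : MDifferentiable 𝓘(ℂ, Cm n) 𝓘(ℂ, Cm n) f ↔
    Differentiable ℂ (Φ ∘ f ∘ Φ.symm) := by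
  have h1 := Φ.contMDiff.mdifferentiable one_ne_zero
  have h2 := Φ.symm.contMDiff.mdifferentiable one_ne_zero
  refine ⟨fun h => mdifferentiable_iff_differentiable.1 (h1.comp (h.comp h2)), fun h => ?_⟩
  have h3 : f = Φ.symm ∘ (Φ ∘ f ∘ Φ.symm) ∘ Φ := by funext x; simp
  rw [h3]
  exact h2.comp (h.mdifferentiable.comp h1)

theorem isom_iff {f : M → M} (hf : MDifferentiable 𝓘(ℂ, Cm n) 𝓘(ℂ, Cm n) f) :
    Isom n f ↔ ∀ z v w, chartG (gc Φ) ((Φ ∘ f ∘ Φ.symm) z) (fderiv ℂ (Φ ∘ f ∘ Φ.symm) z v)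
      (fderiv ℂ (Φ ∘ f ∘ Φ.symm) z w) = chartG (gc Φ) z v w := by
  have he := mdifferentiable_chart (mem_maximalAtlas_real (gc_hc Φ))
  have hF := (hol_iff Φ).1 hf
  set F := Φ ∘ f ∘ Φ.symm
  have h0 : ∀ z, MDifferentiableAt 𝓘(ℝ, Cm n) 𝓘(ℝ, Cm n) (gc Φ).symm z := fun z =>
    he.mdifferentiableAt_symm (mem_univ z)
  have h1 : f ∘ (gc Φ).symm = (gc Φ).symm ∘ F := funext fun z => (Φ.symm_apply_apply _).symm
  have h2 : ∀ z v w, pb ((gc Φ).symm ∘ F) z v w =
      chartG (gc Φ) (F z) (fderiv ℂ F z v) (fderiv ℂ F z w) := fun z v w => by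
    have h3 := mfderiv_comp z (h0 (F z)) ((hF z).restrictScalars ℝ).mdifferentiableAt
    rw [mfderiv_eq_fderiv, (hF z).fderiv_restrictScalars ℝ] at h3
    exact congrArg₂ (inner ℝ (E := TangentSpace 𝓘(ℝ, Cm n) ((gc Φ).symm (F z))))
      congr($h3 v) congr($h3 w)
  have h4 : ∀ z v w, pb (f ∘ (gc Φ).symm) z v w = inner ℝ
      (mfderiv 𝓘(ℝ, Cm n) 𝓘(ℝ, Cm n) f _ (mfderiv 𝓘(ℝ, Cm n) 𝓘(ℝ, Cm n) (gc Φ).symm z v))
      (mfderiv 𝓘(ℝ, Cm n) 𝓘(ℝ, Cm n) f _ (mfderiv 𝓘(ℝ, Cm n) 𝓘(ℝ, Cm n) (gc Φ).symm z w)) :=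
    fun z v w => by
    have h3 := mfderiv_comp z ((contMDiff_real hf _).mdifferentiableAt (by simp)) (h0 z)
    exact congrArg₂ (inner ℝ (E := TangentSpace 𝓘(ℝ, Cm n) (f ((gc Φ).symm z))))
      congr($h3 v) congr($h3 w)
  constructor
  · intro h z v w
    rw [← h2, ← h1, h4]
    exact h _ _ _
  · intro h x v w
    obtain ⟨z, rfl⟩ : ∃ z, (gc Φ).symm z = x := ⟨Φ x, Φ.symm_apply_apply x⟩
    obtain ⟨v, rfl⟩ := he.symm.mfderiv_surjective (mem_univ z) v
    obtain ⟨w, rfl⟩ := he.symm.mfderiv_surjective (mem_univ z) w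
    refine (h4 z v w).symm.trans ?_
    rw [h1]
    exact (h2 z v w).trans (h z v w)

include Φ in
theorem lim_iso {ι : Type} {l : Filter ι} [NeBot l] {φ : ι → M ≃ M} (hφ : ∀ i, HolIso n (φ i))
    {f : M → M} (hl : ∀ x, Tendsto (fun i => φ i x) l (𝓝 (f x))) :
    MDifferentiable 𝓘(ℂ, Cm n) 𝓘(ℂ, Cm n) f ∧ Isom n f := by
  have hd := fun i => dist_le (hφ i)
  have h1 := weier (l := l) (F := fun i => Φ ∘ φ i ∘ Φ.symm) (f := Φ ∘ f ∘ Φ.symm)
    (fun i => (hol_iff Φ).1 (hφ i).hol)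
    (Φ.continuous.comp ((cont_lim hd hl).comp Φ.symm.continuous)) fun z =>
      (Φ.continuous.tendsto _).comp ((cont_conv hd hl (Φ.symm z)).comp
        (tendsto_id.prodMap (Φ.symm.continuous.tendsto z)))
  have h2 := (hol_iff Φ).2 fun z => (h1 z).1
  refine ⟨h2, (isom_iff Φ h2).2 fun z v w => ?_⟩
  have h3 : Continuous (chartG (gc Φ)) := continuousOn_univ.1
    (contDiffOn_chartG (mem_maximalAtlas_real (gc_hc Φ))).continuousOn
  have h4 : Continuous fun y : Cm n × (Cm n →L[ℂ] Cm n) => chartG (gc Φ) y.1 (y.2 v) (y.2 w) := by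
    fun_prop
  have h5 := (h4.tendsto _).comp
    (((Φ.continuous.tendsto _).comp (hl (Φ.symm z))).prodMk_nhds (h1 z).2)
  exact tendsto_nhds_unique h5 (tendsto_const_nhds.congr fun i =>
    ((isom_iff Φ (hφ i).hol).1 (hφ i).isom z v w).symm)

theorem isom_comp {f g : M → M} (hf : MDifferentiable 𝓘(ℂ, Cm n) 𝓘(ℂ, Cm n) f)
    (hg : MDifferentiable 𝓘(ℂ, Cm n) 𝓘(ℂ, Cm n) g) (x : M) (v : TangentSpace 𝓘(ℝ, Cm n) x) :
    mfderiv 𝓘(ℝ, Cm n) 𝓘(ℝ, Cm n) (f ∘ g) x v =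
      mfderiv 𝓘(ℝ, Cm n) 𝓘(ℝ, Cm n) f (g x) (mfderiv 𝓘(ℝ, Cm n) 𝓘(ℝ, Cm n) g x v) :=
  congr($(mfderiv_comp x ((contMDiff_real hf _).mdifferentiableAt (by simp))
    ((contMDiff_real hg _).mdifferentiableAt (by simp))) v)

theorem isom_id : Isom n (id : M → M) := fun x v w => by rw [mfderiv_id]; rfl

variable (n M) in
/-- the group of holomorphic isometries -/
def grp : Subgroup (Equiv.Perm M) where
  carrier := {φ | HolIso n φ}
  one_mem' := ⟨mdifferentiable_id, mdifferentiable_id, isom_id⟩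
  mul_mem' {φ ψ} h k := ⟨h.hol.comp k.hol, k.hol_symm.comp h.hol_symm, fun x v w => by
    refine Eq.trans ?_ ((h.isom _ _ _).trans (k.isom x v w))
    exact congrArg₂ (inner ℝ (E := TangentSpace 𝓘(ℝ, Cm n) (φ (ψ x))))
      (isom_comp h.hol k.hol x v) (isom_comp h.hol k.hol x w)⟩
  inv_mem' {φ} h := ⟨h.hol_symm, h.hol, fun x v w => by
    have h1 : Isom n (φ ∘ φ.symm) := by rw [φ.self_comp_symm]; exact isom_id
    refine Eq.trans ?_ (h1 x v w)
    refine (h.isom _ _ _).symm.trans ?_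
    exact (congrArg₂ (inner ℝ (E := TangentSpace 𝓘(ℝ, Cm n) (φ (φ.symm x))))
      (isom_comp h.hol h.hol_symm x v) (isom_comp h.hol h.hol_symm x w)).symm⟩

theorem dist_inv {φ : M ≃ M} (h : HolIso n φ) (x y : M) : dist (φ.symm x) y ≤ dist x (φ y) := by
  simpa using dist_le ((grp n M).inv_mem h) x (φ y)

variable (n M) in
/-- the group of holomorphic isometries with the topology of pointwise convergence -/
def Gr : Type := grp n M

instance : Group (Gr n M) := inferInstanceAs (Group (grp n M))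

instance : TopologicalSpace (Gr n M) :=
  TopologicalSpace.induced (fun φ : grp n M => (φ.1 : M → M)) inferInstance

theorem tendsto_gr {ι : Type} {l : Filter ι} {u : ι → Gr n M} {φ : Gr n M} :
    Tendsto u l (𝓝 φ) ↔ ∀ x, Tendsto (fun i => (u i).1 x) l (𝓝 (φ.1 x)) := by
  have h : 𝓝 φ = comap (fun φ : Gr n M => (φ.1 : M → M)) (𝓝 (φ.1 : M → M)) :=
    nhds_induced (fun φ : Gr n M => (φ.1 : M → M)) φ
  rw [h, tendsto_comap_iff, tendsto_pi_nhds]
  rfl

theorem tendsto_symm {ι : Type} {l : Filter ι} {φ : ι → M ≃ M} (hφ : ∀ i, HolIso n (φ i))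
    {x y : M} (h : Tendsto (fun i => φ i y) l (𝓝 x)) : Tendsto (fun i => (φ i).symm x) l (𝓝 y) :=
  tendsto_iff_dist_tendsto_zero.2 (squeeze_zero (fun _ => dist_nonneg)
    (fun i => (dist_inv (hφ i) x y).trans_eq (dist_comm _ _)) (tendsto_iff_dist_tendsto_zero.1 h))

instance : IsTopologicalGroup (Gr n M) where
  continuous_mul := continuous_iff_continuousAt.2 fun a => tendsto_gr.2 fun x =>
    (cont_conv (φ := fun i : Gr n M × Gr n M => i.1.1) (fun i => dist_le i.1.2)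
      (tendsto_gr.1 (continuous_fst.tendsto a)) (a.2.1 x)).comp
      (tendsto_id.prodMk (tendsto_gr.1 (continuous_snd.tendsto a) x))
  continuous_inv := continuous_iff_continuousAt.2 fun a => tendsto_gr.2 fun x =>
    tendsto_symm (φ := fun i : Gr n M => i.1) (fun i => i.2) (y := a.1.symm x) (by
      simpa using tendsto_gr.1 (tendsto_id (x := 𝓝 a)) (a.1.symm x))

include Φ in
theorem compact_gr (hb : ∀ x : M, ∃ R : ℝ, ∀ φ : M ≃ M, HolIso n φ → dist (φ x) x ≤ R) :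
    CompactSpace (Gr n M) := by
  have : ProperSpace M := properSpace_riemannian (Cm n) M
  refine ⟨isCompact_iff_ultrafilter_le_nhds.2 fun U _ => ?_⟩
  have key : ∀ φ : Gr n M → M ≃ M, (∀ i, HolIso n (φ i)) →
      ∀ x, ∃ y, Tendsto (fun i => φ i x) U (𝓝 y) := fun φ hφ x => by
    obtain ⟨R, hR⟩ := hb x
    obtain ⟨y, -, hy⟩ := (isCompact_closedBall x R).ultrafilter_le_nhds' (U.map fun i => φ i x)
      (Ultrafilter.mem_map.2 (univ_mem' fun i => hR _ (hφ i)))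
    exact ⟨y, hy⟩
  have h1 : ∀ i : Gr n M, HolIso n i.1 := fun i => i.2
  have h2 : ∀ i : Gr n M, HolIso n i.1.symm := fun i => (grp n M).inv_mem i.2
  choose f hf using key _ h1
  choose g hg using key _ h2
  let ψ : M ≃ M := ⟨f, g, fun x => tendsto_nhds_unique
      ((cont_conv (fun i => dist_le (h2 i)) hg (f x)).comp (tendsto_id.prodMk (hf x)))
      (tendsto_const_nhds.congr fun i => (i.1.symm_apply_apply x).symm),
    fun x => tendsto_nhds_unique
      ((cont_conv (fun i => dist_le (h1 i)) hf (g x)).comp (tendsto_id.prodMk (hg x)))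
      (tendsto_const_nhds.congr fun i => (i.1.apply_symm_apply x).symm)⟩
  exact ⟨⟨ψ, (lim_iso Φ h1 hf).1, (lim_iso Φ h2 hg).1, (lim_iso Φ h1 hf).2⟩, trivial,
    tendsto_gr.2 hf⟩

end Vale.Agent.N253
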