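import Mathlib

/-!
# The theorem of Jung and van der Kulk
-/

open MvPolynomial

noncomputable section

namespace Vale.Agent.N253

section

variable {R : Type} [CommRing R] [Algebra ℂ R] (δ : Derivation ℂ R R)

theorem it_add (k : ℕ) (a b : R) : δ^[k] (a + b) = δ^[k] a + δ^[k] b :=
  iterate_map_add (δ : R →ₗ[ℂ] R) k a b

theorem it_zero (k : ℕ) : δ^[k] 0 = 0 := iterate_map_zero (δ : R →ₗ[ℂ] R) k

theorem it_mul (k : ℕ) {a : R} (ha : δ a = 0) (b : R) : δ^[k] (a * b) = a * δ^[k] b := by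
  induction k with
  | zero => rfl
  | succ k ih => simp [Function.iterate_succ_apply', ih, ha]

theorem it_top (s : ℕ) : ∀ (i j : ℕ) (a b : R), i + j = s → δ^[i + 1] a = 0 → δ^[j + 1] b = 0 →
    δ^[s] (a * b) = (s.choose i : R) * (δ^[i] a * δ^[j] b) := by
  induction s with
  | zero =>
    intro i j a b h _ _
    obtain ⟨rfl, rfl⟩ := Nat.add_eq_zero_iff.1 h
    simp
  | succ s ih =>
    rintro (_ | i) (_ | j) a b h ha hb
    · omega
    · obtain rfl : j = s := by omega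
      rw [it_mul δ _ ha]
      simp
    · obtain rfl : i = s := by omega
      rw [mul_comm a, it_mul δ _ hb]
      simp [mul_comm]
    · rw [Function.iterate_succ_apply, δ.leibniz, smul_eq_mul, smul_eq_mul, it_add,
        ih (i + 1) j a (δ b) (by omega) ha hb, mul_comm b, ih i (j + 1) (δ a) b (by omega) ha hb,
        Nat.choose_succ_succ', ← Function.iterate_succ_apply, ← Function.iterate_succ_apply]
      push_cast
      ring

/-- `a` is killed by a power of `δ` -/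
def Nil (a : R) : Prop := ∃ k, δ^[k] a = 0

variable {δ}

theorem it_mono {k l : ℕ} {a : R} (h : δ^[k] a = 0) (hl : k ≤ l) : δ^[l] a = 0 := by
  obtain ⟨m, rfl⟩ := Nat.exists_eq_add_of_le' hl
  rw [Function.iterate_add_apply, h, it_zero]

theorem Nil.add {a b : R} (ha : Nil δ a) (hb : Nil δ b) : Nil δ (a + b) := by
  obtain ⟨i, hi⟩ := ha
  obtain ⟨j, hj⟩ := hb
  exact ⟨i + j, by rw [it_add, it_mono hi (by omega), it_mono hj (by omega), add_zero]⟩

theorem Nil.mul {a b : R} (ha : Nil δ a) (hb : Nil δ b) : Nil δ (a * b) := by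
  obtain ⟨i, hi⟩ := ha
  obtain ⟨j, hj⟩ := hb
  have h1 := it_mono hi i.le_succ
  have h2 := it_mono hj j.le_succ
  exact ⟨i + j, by rw [it_top δ _ i j a b rfl h1 h2, hi, zero_mul, mul_zero]⟩

theorem Nil.deg {a : R} (ha : Nil δ a) (h0 : a ≠ 0) : ∃ i, δ^[i] a ≠ 0 ∧ δ^[i + 1] a = 0 := by
  classical
  have h1 : Nat.find ha ≠ 0 := fun h => h0 (by simpa [h] using Nat.find_spec ha)
  obtain ⟨i, hi⟩ := Nat.exists_eq_succ_of_ne_zero h1
  exact ⟨i, Nat.find_min ha (by omega), by simpa [hi] using Nat.find_spec ha⟩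

variable [IsDomain R] [CharZero R]

theorem it_ne {i j : ℕ} {a b : R} (h1 : δ^[i] a ≠ 0) (h2 : δ^[i + 1] a = 0) (h3 : δ^[j] b ≠ 0)
    (h4 : δ^[j + 1] b = 0) : δ^[i + j] (a * b) ≠ 0 := by
  rw [it_top δ _ i j a b rfl h2 h4]
  exact mul_ne_zero (Nat.cast_ne_zero.2 (Nat.choose_pos (by omega)).ne') (mul_ne_zero h1 h3)

theorem ker_dvd (hδ : ∀ a, Nil δ a) {a F : R} (h : a ∣ F) (h0 : F ≠ 0) (hF : δ F = 0) :
    δ a = 0 := by
  obtain ⟨b, rfl⟩ := h
  obtain ⟨i, h1, h2⟩ := (hδ a).deg (left_ne_zero_of_mul h0)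
  obtain ⟨j, h3, h4⟩ := (hδ b).deg (right_ne_zero_of_mul h0)
  have h5 : ¬ 1 ≤ i + j := fun h => it_ne h1 h2 h3 h4 (it_mono (k := 1) hF h)
  obtain rfl : i = 0 := by omega
  exact h2

theorem lt_of_dvd (hδ : ∀ a, Nil δ a) {a b : R} {i j : ℕ} (h : b ∣ δ a) (h0 : δ a ≠ 0)
    (h2 : δ^[i + 1] a = 0) (h3 : δ^[j] b ≠ 0) (h4 : δ^[j + 1] b = 0) : j < i := by
  obtain ⟨u, hu⟩ := h
  obtain ⟨l, h5, h6⟩ := (hδ u).deg (right_ne_zero_of_mul (hu ▸ h0))
  by_contra hn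
  exact it_ne h3 h4 h5 h6 (hu ▸ it_mono (k := i) h2 (by omega))

theorem cross (hδ : ∀ a, Nil δ a) {a b : R} (h1 : b ∣ δ a) (h2 : a ∣ δ b) : δ a = 0 ∨ δ b = 0 := by
  by_contra hn
  obtain ⟨h3, h4⟩ := not_or.1 hn
  obtain ⟨i, h5, h6⟩ := (hδ a).deg fun h => h3 (by rw [h, map_zero])
  obtain ⟨j, h7, h8⟩ := (hδ b).deg fun h => h4 (by rw [h, map_zero])
  exact (lt_of_dvd hδ h1 h3 h6 h7 h8).asymm (lt_of_dvd hδ h2 h4 h8 h5 h6)

end

/-- polynomials in two variables -/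
abbrev R2 : Type := MvPolynomial (Fin 2) ℂ

theorem nil_all {δ : Derivation ℂ R2 R2} (h : ∀ i, Nil δ (X i)) (a : R2) : Nil δ a := by
  induction a using MvPolynomial.induction_on with
  | C c => exact ⟨1, derivation_C δ c⟩
  | add p q hp hq => exact hp.add hq
  | mul_X p i hp => exact hp.mul (h i)

/-- the Jacobian derivation -/
def jac (f : R2) : Derivation ℂ R2 R2 := pderiv 0 f • pderiv 1 - pderiv 1 f • pderiv 0

theorem jac_apply (f h : R2) : jac f h = pderiv 0 f * pderiv 1 h - pderiv 1 f * pderiv 0 h := rfl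

theorem chain (d : Derivation ℂ R2 R2) (γ : R2 ≃ₐ[ℂ] R2) (u : R2) :
    d (γ u) = γ (pderiv 0 u) * d (γ (X 0)) + γ (pderiv 1 u) * d (γ (X 1)) := by
  induction u using MvPolynomial.induction_on with
  | C c => rw [← algebraMap_eq, γ.commutes]; simp
  | add p q hp hq => simp only [map_add, hp, hq]; ring
  | mul_X p i hp => fin_cases i <;> simp [hp, pderiv_X] <;> ring

theorem jac_unit (γ : R2 ≃ₐ[ℂ] R2) : ∃ c : ℂ, c ≠ 0 ∧ jac (γ (X 0)) (γ (X 1)) = C c := by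
  have h1 := chain (pderiv 0) γ (γ.symm (X 0))
  have h2 := chain (pderiv 1) γ (γ.symm (X 0))
  have h3 := chain (pderiv 0) γ (γ.symm (X 1))
  have h4 := chain (pderiv 1) γ (γ.symm (X 1))
  simp only [AlgEquiv.apply_symm_apply, pderiv_X_self, pderiv_X_of_ne (zero_ne_one (α := Fin 2)),
    pderiv_X_of_ne (one_ne_zero (α := Fin 2))] at h1 h2 h3 h4
  obtain ⟨c, hc, h⟩ := isUnit_iff_eq_C_of_isReduced.1 (IsUnit.of_mul_eq_one
    (a := jac (γ (X 0)) (γ (X 1))) (γ (pderiv 0 (γ.symm (X 0))) * γ (pderiv 1 (γ.symm (X 1))) -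
      γ (pderiv 1 (γ.symm (X 0))) * γ (pderiv 0 (γ.symm (X 1)))) (by
      rw [jac_apply]
      linear_combination (-1) * (congr($h1 * $h4) - congr($h2 * $h3))))
  exact ⟨c, hc.ne_zero, h⟩

theorem jac_nil (γ : R2 ≃ₐ[ℂ] R2) (h : R2) : Nil (jac (γ (X 0))) h := by
  obtain ⟨c, -, hc⟩ := jac_unit γ
  obtain ⟨u, rfl⟩ := γ.surjective h
  obtain ⟨k, hk⟩ := nil_all (δ := pderiv 1) (fun i => ⟨2, by fin_cases i <;> simp [pderiv_X]⟩) u
  have h1 : ∀ k, (jac (γ (X 0)))^[k] (γ u) = C c ^ k * γ ((pderiv 1)^[k] u) := fun k => by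
    induction k with
    | zero => simp
    | succ k ih =>
      rw [Function.iterate_succ_apply', Function.iterate_succ_apply', ih, Derivation.leibniz,
        ← map_pow, derivation_C, chain, hc, jac_apply, map_pow]
      simp only [smul_eq_mul]
      ring
  exact ⟨k, by rw [h1, hk, map_zero, mul_zero]⟩

section

variable {w : Fin 2 → ℤ} {a b : ℤ} {f g F G : R2}

variable (w a f) in
/-- all monomials have weight at most `a` -/
def Le : Prop := ∀ d, f.coeff d ≠ 0 → Finsupp.weight w d ≤ a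

theorem Le.add (hf : Le w a f) (hg : Le w a g) : Le w a (f + g) := fun d h => by
  by_cases h1 : f.coeff d = 0
  · exact hg d (by rwa [coeff_add, h1, zero_add] at h)
  · exact hf d h1

theorem Le.sub (hf : Le w a f) (hg : Le w a g) : Le w a (f - g) := by
  rw [sub_eq_add_neg]
  exact hf.add fun d h => hg d (by simpa using h)

theorem Le.mul (hf : Le w a f) (hg : Le w b g) : Le w (a + b) (f * g) := fun d h => by
  classical
  rw [coeff_mul] at h
  obtain ⟨x, h1, h2⟩ := Finset.exists_ne_zero_of_sum_ne_zero h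
  rw [← Finset.HasAntidiagonal.mem_antidiagonal.1 h1, map_add]
  exact add_le_add (hf _ (left_ne_zero_of_mul h2)) (hg _ (right_ne_zero_of_mul h2))

theorem Le.pd (hf : Le w a f) (i : Fin 2) : Le w (a - w i) (pderiv i f) := fun d h => by
  rw [coeff_pderiv] at h
  have := hf _ (left_ne_zero_of_mul h)
  rw [map_add, Finsupp.weight_single, one_smul] at this
  omega

theorem Le.jac (hf : Le w a f) (hg : Le w b g) : Le w (a + b - w 0 - w 1) (jac f g) := by
  have h1 := (hf.pd 0).mul (hg.pd 1)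
  have h2 := (hf.pd 1).mul (hg.pd 0)
  exact Le.sub (fun d h => (h1 d h).trans_eq (by ring)) fun d h => (h2 d h).trans_eq (by ring)

theorem le_of_hom (h : IsWeightedHomogeneous w f a) : Le w a f := fun _ h1 => (h h1).le

variable (w a f F) in
/-- `F` is the part of highest weight `a` of `f` -/
def Top : Prop := IsWeightedHomogeneous w F a ∧ Le w (a - 1) (f - F)

theorem Top.le (h : Top w a f F) : Le w a f := by
  simpa using Le.add (fun d h1 => (h.2 d h1).trans (by omega)) (le_of_hom h.1)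

theorem Top.jac (hf : Top w a f F) (hg : Top w b g G) :
    Top w (a + b - w 0 - w 1) (jac f g) (jac F G) := by
  have h1 := (hf.1.pderiv (i := 0) (sub_add_cancel a _)).mul
    (hg.1.pderiv (i := 1) (sub_add_cancel b _))
  have h2 := (hf.1.pderiv (i := 1) (sub_add_cancel a _)).mul
    (hg.1.pderiv (i := 0) (sub_add_cancel b _))
  refine ⟨IsWeightedHomogeneous.sub (fun d h => (h1 h).trans (by ring))
    fun d h => (h2 h).trans (by ring), ?_⟩
  have h3 : N253.jac f g - N253.jac F G = N253.jac (f - F) g + N253.jac F (g - G) := by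
    simp only [jac_apply, map_sub]
    ring
  rw [h3]
  exact Le.add (fun d h => (hf.2.jac hg.le d h).trans_eq (by ring))
    fun d h => ((le_of_hom hf.1).jac hg.2 d h).trans_eq (by ring)

theorem Top.nil {γ : R2 ≃ₐ[ℂ] R2} (h : Top w a (γ (X 0)) F) : ∀ u, Nil (N253.jac F) u := by
  refine nil_all fun i => ?_
  have h1 : ∀ k, ∃ b, Top w b ((N253.jac (γ (X 0)))^[k] (X i)) ((N253.jac F)^[k] (X i)) := by
    intro k
    induction k with
    | zero => exact ⟨w i, isWeightedHomogeneous_X ℂ w i, fun d h => by simp at h⟩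
    | succ k ih =>
      obtain ⟨b, hb⟩ := ih
      exact ⟨_, by simpa only [Function.iterate_succ_apply'] using h.jac hb⟩
  obtain ⟨k, hk⟩ := jac_nil γ (X i)
  obtain ⟨b, h2, h3⟩ := h1 k
  refine ⟨k, MvPolynomial.ext _ _ fun d => not_not.1 fun h4 => ?_⟩
  have h5 := h3 d (by simpa [hk] using h4)
  have h6 := h2 (d := d) (by simpa using h4)
  omega

theorem pd_zero {σ : Type} {f : MvPolynomial σ ℂ} {i : σ} (h : pderiv i f = 0) {d : σ →₀ ℕ}
    (hd : f.coeff d ≠ 0) : d i = 0 := by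
  by_contra hn
  have h1 := coeff_pderiv (i := i) f (d - Finsupp.single i 1)
  rw [h, tsub_add_cancel_of_le (Finsupp.single_le_iff.2 (by omega)), coeff_zero] at h1
  exact mul_ne_zero hd (Nat.cast_add_one_ne_zero _) h1.symm

theorem X_dvd_of {i : Fin 2} (h : ∀ d, f.coeff d ≠ 0 → d i ≠ 0) : X i ∣ f := by
  rw [f.as_sum]
  exact Finset.dvd_sum fun d hd => X_dvd_monomial.2 (.inr (h d (mem_support_iff.1 hd)))

theorem jac_x : N253.jac F (X 0) = -pderiv 1 F := by simp [jac_apply, pderiv_X]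

theorem jac_y : N253.jac F (X 1) = pderiv 0 F := by simp [jac_apply, pderiv_X]

theorem Top.dvd {γ : R2 ≃ₐ[ℂ] R2} (h : Top w a (γ (X 0)) F) (h1 : X 1 ∣ F) {d : Fin 2 →₀ ℕ}
    (hd : F.coeff d ≠ 0) : d 0 = 0 :=
  pd_zero (jac_y.symm.trans (ker_dvd h.nil h1 (fun h => hd (by simp [h]))
    (by rw [jac_apply]; ring))) hd

theorem Top.cases {γ : R2 ≃ₐ[ℂ] R2} (h : Top w a (γ (X 0)) F) :
    (∃ d, F.coeff d ≠ 0 ∧ (d 1 = 1 ∨ d 0 = 1)) ∨ pderiv 1 F = 0 ∨ pderiv 0 F = 0 := by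
  refine or_iff_not_imp_left.2 fun hn => ?_
  have h1 : ∀ i : Fin 2, (∀ d, F.coeff d ≠ 0 → d i ≠ 1) → X i ∣ pderiv i F := fun i h1 =>
    X_dvd_of fun d hd h2 => by
      rw [coeff_pderiv] at hd
      exact h1 _ (left_ne_zero_of_mul hd) (by simp [h2])
  simpa [jac_x, jac_y] using cross h.nil (a := X 0) (b := X 1)
    (by rw [jac_x]; exact (h1 1 fun d hd h2 => hn ⟨d, hd, .inl h2⟩).neg_right)
    (by rw [jac_y]; exact h1 0 fun d hd h2 => hn ⟨d, hd, .inr h2⟩)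

theorem hom_aeval {σ : Fin 2 → R2} (hσ : ∀ i, IsWeightedHomogeneous w (σ i) (w i))
    (d : Fin 2 →₀ ℕ) (c : ℂ) :
    IsWeightedHomogeneous w (aeval σ (monomial d c)) (Finsupp.weight w d) := by
  rw [aeval_monomial, Finsupp.prod_fintype _ _ (by simp), Finsupp.weight_apply,
    Finsupp.sum_fintype _ _ (by simp)]
  exact (IsWeightedHomogeneous.prod _ _ _ fun i _ => (hσ i).pow _).C_mul c

theorem Top.aeval {σ : Fin 2 → R2} (hσ : ∀ i, IsWeightedHomogeneous w (σ i) (w i))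
    (h : Top w a f F) : Top w a (aeval σ f) (aeval σ F) := by
  constructor
  · rw [F.as_sum, map_sum]
    exact IsWeightedHomogeneous.sum _ _ _ fun d hd =>
      h.1 (mem_support_iff.1 hd) ▸ hom_aeval hσ d _
  · rw [← map_sub, (f - F).as_sum, map_sum]
    intro e he
    rw [coeff_sum] at he
    obtain ⟨d, h1, h2⟩ := Finset.exists_ne_zero_of_sum_ne_zero he
    exact (hom_aeval hσ d _ h2).trans_le (h.2 d (mem_support_iff.1 h1))

end

theorem wt (m n : ℕ) (d : Fin 2 →₀ ℕ) :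
    Finsupp.weight (![m, n] : Fin 2 → ℤ) d = (d 0 * m + d 1 * n : ℕ) := by
  rw [Finsupp.weight_apply, Finsupp.sum_fintype _ _ (by simp)]
  simp

theorem exists_deg {f : R2} {i : Fin 2} (h : 0 < f.degreeOf i) :
    ∃ d, f.coeff d ≠ 0 ∧ d i = f.degreeOf i := by
  have h0 : f ≠ 0 := by
    rintro rfl
    simp at h
  obtain ⟨d, h1, h2⟩ := Finset.exists_mem_eq_sup f.support (support_nonempty.2 h0) fun d => d i
  exact ⟨d, mem_support_iff.1 h1, by rw [degreeOf_eq_sup, h2]⟩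

theorem top_data (γ : R2 ≃ₐ[ℂ] R2) {n m : ℕ} (hn : (γ (X 0)).degreeOf 0 = n)
    (hm : (γ (X 0)).degreeOf 1 = m) (n0 : 0 < n) (m0 : 0 < m) :
    ∃ F, Top ![m, n] (n * m : ℕ) (γ (X 0)) F ∧ (∃ d, F.coeff d ≠ 0 ∧ d 1 = m) ∧
      (m ∣ n ∨ n ∣ m) := by
  obtain ⟨d, d1, d2⟩ := exists_deg (hn ▸ n0)
  obtain ⟨e, e1, e2⟩ := exists_deg (hm ▸ m0)
  rw [hn] at d2
  rw [hm] at e2
  obtain ⟨s, s1, s2⟩ := Finset.exists_max_image (γ (X 0)).support (fun d => d 0 * m + d 1 * n)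
    ⟨d, mem_support_iff.2 d1⟩
  set W := s 0 * m + s 1 * n with hW
  let F := weightedHomogeneousComponent (![m, n] : Fin 2 → ℤ) W (γ (X 0))
  have h1 : ∀ d, F.coeff d ≠ 0 ↔ (γ (X 0)).coeff d ≠ 0 ∧ d 0 * m + d 1 * n = W := fun d => by
    simp only [F, coeff_weightedHomogeneousComponent, wt, Nat.cast_inj]
    split_ifs with h <;> simp [h]
  have h2 : Top ![m, n] W (γ (X 0)) F := ⟨weightedHomogeneousComponent_isWeightedHomogeneous _ _,
    fun d h => by
      simp only [F, coeff_sub, coeff_weightedHomogeneousComponent, wt, Nat.cast_inj] at h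
      split_ifs at h with h3
      · simp at h
      · have := s2 d (mem_support_iff.2 (by simpa using h))
        rw [wt]
        omega⟩
  have h3 : ∀ d, F.coeff d ≠ 0 → d 0 ≤ n ∧ d 1 ≤ m := fun d h =>
    ⟨hn ▸ monomial_le_degreeOf 0 (mem_support_iff.2 ((h1 d).1 h).1),
      hm ▸ monomial_le_degreeOf 1 (mem_support_iff.2 ((h1 d).1 h).1)⟩
  have h4 : W ≤ n * m := by
    obtain ⟨t, t1, t2⟩ : ∃ t, F.coeff t ≠ 0 ∧ (t 0 = 0 ∨ t 1 = 0) := by
      by_contra h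
      have h5 := (h1 s).2 ⟨mem_support_iff.1 s1, rfl⟩
      exact h ⟨s, h5, .inl (h2.dvd (X_dvd_of fun d hd h6 => h ⟨d, hd, .inr h6⟩) h5)⟩
    rw [← ((h1 t).1 t1).2]
    obtain ⟨t3, t4⟩ := h3 t t1
    rcases t2 with t2 | t2 <;> rw [t2] <;> nlinarith
  have h5 := s2 d (mem_support_iff.2 d1)
  have h6 := s2 e (mem_support_iff.2 e1)
  rw [d2] at h5
  rw [e2] at h6
  have h7 : W = n * m := by omega
  have h8 := (h1 d).2 ⟨d1, by rw [d2]; omega⟩
  have h9 := (h1 e).2 ⟨e1, by rw [e2, mul_comm m n] at *; omega⟩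
  refine ⟨F, h7 ▸ h2, ⟨e, h9, e2⟩, ?_⟩
  rcases h2.cases with ⟨t, t1, t2 | t2⟩ | h | h
  · have t3 := ((h1 t).1 t1).2
    rw [t2, h7, one_mul] at t3
    exact .inl ((Nat.dvd_add_right (dvd_mul_left m _)).1 (t3 ▸ dvd_mul_left m n))
  · have t3 := ((h1 t).1 t1).2
    rw [t2, h7, one_mul] at t3
    exact .inr ((Nat.dvd_add_left (dvd_mul_left n _)).1 (t3 ▸ dvd_mul_right n m))
  · have := pd_zero h h9
    omega
  · have := pd_zero h h8
    omega

/-- the automorphism `x ↦ x`, `y ↦ y + μ x ^ a` -/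
def tri (μ : ℂ) (a : ℕ) : R2 ≃ₐ[ℂ] R2 :=
  AlgEquiv.ofAlgHom (aeval ![X 0, X 1 + C μ * X 0 ^ a]) (aeval ![X 0, X 1 - C μ * X 0 ^ a])
    (algHom_ext fun i => by fin_cases i <;> simp) (algHom_ext fun i => by fin_cases i <;> simp)

theorem aeval_two {S : Type} [CommRing S] [Algebra ℂ S] (u v : S) (F : R2) :
    aeval ![u, v] F = ∑ d ∈ F.support, algebraMap ℂ S (F.coeff d) * (u ^ d 0 * v ^ d 1) := by
  simp [aeval_def, eval₂_eq']

theorem step (γ : R2 ≃ₐ[ℂ] R2) {n m : ℕ} (hn : (γ (X 0)).degreeOf 0 = n)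
    (hm : (γ (X 0)).degreeOf 1 = m) (n0 : 0 < n) (m0 : 0 < m) (h : m ∣ n) :
    ∃ μ a, ((tri μ a * γ) (X 0)).degreeOf 0 < n ∧ ((tri μ a * γ) (X 0)).degreeOf 1 ≤ m := by
  obtain ⟨F, h1, ⟨e, e1, e2⟩, -⟩ := top_data γ hn hm n0 m0
  obtain ⟨a, rfl⟩ := h
  have h2 : ∀ d, F.coeff d ≠ 0 → d 0 + a * d 1 = m * a := fun d hd => by
    have h3 := h1.1 hd
    rw [wt, Nat.cast_inj] at h3
    exact Nat.eq_of_mul_eq_mul_right m0 (by linarith)
  obtain ⟨μ, hμ⟩ := Complex.exists_root (f := aeval ![1, Polynomial.X] F)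
    (Polynomial.natDegree_pos_iff_degree_pos.1 (m0.trans_le (Polynomial.le_natDegree_of_ne_zero (by
      rw [aeval_two, Polynomial.finsetSum_coeff, Finset.sum_eq_single e]
      · simpa [e2] using e1
      · intro d hd hne
        have h3 := h2 d (mem_support_iff.1 hd)
        have h4 := h2 e e1
        have h5 : m ≠ d 1 := fun h5 => hne (Finsupp.ext fun i => by
          rw [← h5] at h3
          rw [e2] at h4
          fin_cases i
          · exact (by omega : d 0 = e 0)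
          · exact h5.symm.trans e2.symm)
        simp [Polynomial.coeff_X_pow, h5]
      · exact fun h => absurd (mem_support_iff.2 e1) h))))
  have h3 : Top ![(m : ℤ), (m * a : ℕ)] (m * a * m : ℕ) ((tri μ a * γ) (X 0)) (tri μ a F) :=
    h1.aeval fun i => by
      fin_cases i
      · exact isWeightedHomogeneous_X ℂ _ 0
      · refine (isWeightedHomogeneous_X ℂ _ 1).add fun d hd => ?_
        rw [((isWeightedHomogeneous_X ℂ _ 0).pow a).C_mul μ hd]
        simp [mul_comm]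
  have h4 : aeval ![X 0, C μ * X 0 ^ a] F = (0 : R2) := by
    rw [Polynomial.IsRoot, aeval_two, Polynomial.eval_finsetSum] at hμ
    rw [aeval_two, ← zero_mul (X 0 ^ (m * a)), ← C_0, ← hμ, map_sum, Finset.sum_mul]
    refine Finset.sum_congr rfl fun d hd => ?_
    rw [← h2 d (mem_support_iff.1 hd)]
    simp
    ring
  have h5 : X 1 ∣ tri μ a F := by
    have h6 : (Ideal.Quotient.mkₐ ℂ (Ideal.span {(X 1 : R2)})).comp (tri μ a : R2 →ₐ[ℂ] R2) =
        (Ideal.Quotient.mkₐ ℂ _).comp (aeval ![X 0, C μ * X 0 ^ a]) := algHom_ext fun i => by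
      fin_cases i <;> simp [tri]
    have h7 := DFunLike.congr_fun h6 F
    rw [AlgHom.comp_apply, AlgHom.comp_apply, h4, map_zero] at h7
    exact Ideal.mem_span_singleton.1 (Ideal.Quotient.eq_zero_iff_mem.1 h7)
  have h6 : ∀ d ∈ ((tri μ a * γ) (X 0)).support, d 0 < m * a ∧ d 1 ≤ m := fun d hd => by
    have h7 := h3.le d (mem_support_iff.1 hd)
    rw [wt, Nat.cast_le] at h7
    refine ⟨?_, by nlinarith⟩
    by_cases h8 : (tri μ a F).coeff d = 0
    · have h9 := h3.2 d (by simpa [h8] using hd)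
      rw [wt] at h9
      have h10 : d 0 * m + d 1 * (m * a) < m * a * m := by omega
      nlinarith
    · rwa [h3.dvd h5 h8]
  exact ⟨μ, a, (degreeOf_lt_iff n0).2 fun d hd => (h6 d hd).1,
    degreeOf_le_iff.2 fun d hd => (h6 d hd).2⟩

/-- the automorphisms which preserve `V` -/
def stab (V : Submodule ℂ R2) : Subgroup (R2 ≃ₐ[ℂ] R2) where
  carrier := {γ | ∀ h, γ h ∈ V ↔ h ∈ V}
  one_mem' _ := Iff.rfl
  mul_mem' h k u := (h _).trans (k u)
  inv_mem' {γ} h u := by simpa using (h (γ.symm u)).symm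

theorem mem_stab {s : Set R2} (hs : s.Finite) {γ : R2 ≃ₐ[ℂ] R2}
    (h : ∀ u ∈ s, γ u ∈ Submodule.span ℂ s) : γ ∈ stab (Submodule.span ℂ s) := by
  have := Module.Finite.span_of_finite ℂ hs
  have h1 : (Submodule.span ℂ s).map (γ.toLinearEquiv : R2 →ₗ[ℂ] R2) = Submodule.span ℂ s :=
    Submodule.eq_of_le_of_finrank_eq (Submodule.map_span_le _ _ _ |>.2 h)
      (LinearEquiv.finrank_map_eq _ _)
  intro u
  conv_lhs => rw [← h1]
  exact ⟨fun ⟨v, hv, h2⟩ => γ.injective h2 ▸ hv, fun hu => ⟨u, hu, rfl⟩⟩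

/-- affine automorphisms -/
def Af : Subgroup (R2 ≃ₐ[ℂ] R2) := stab (Submodule.span ℂ {1, X 0, X 1})

/-- triangular automorphisms -/
def Tr : Subgroup (R2 ≃ₐ[ℂ] R2) := stab (Submodule.span ℂ {1, X 0})

theorem mem_Tr {γ : R2 ≃ₐ[ℂ] R2} : γ ∈ Tr ↔ ∃ c α : ℂ, γ (X 0) = C c + C α * X 0 := by
  have h1 : ∀ u : R2, u ∈ Submodule.span ℂ {1, X 0} ↔ ∃ c α : ℂ, u = C c + C α * X 0 := fun u => by
    simp only [Submodule.mem_span_pair, smul_eq_C_mul, mul_one, eq_comm]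
  refine ⟨fun h => (h1 _).1 ((h _).2 (Submodule.subset_span (by simp))), fun h => ?_⟩
  refine mem_stab (Set.toFinite _) ?_
  rintro _ (rfl | rfl)
  · exact Submodule.subset_span (by simp)
  · exact (h1 _).2 h

theorem mem_Af {γ : R2 ≃ₐ[ℂ] R2} :
    γ ∈ Af ↔ ∀ i, ∃ c α β : ℂ, γ (X i) = C c + C α * X 0 + C β * X 1 := by
  have h1 : ∀ u : R2, u ∈ Submodule.span ℂ {1, X 0, X 1} ↔
      ∃ c α β : ℂ, u = C c + C α * X 0 + C β * X 1 := fun u => by
    simp only [Submodule.mem_span_triple, smul_eq_C_mul, mul_one, eq_comm]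
  refine ⟨fun h i => (h1 _).1 ((h _).2 (Submodule.subset_span (by fin_cases i <;> simp))),
    fun h => mem_stab (Set.toFinite _) ?_⟩
  rintro _ (rfl | rfl | rfl)
  · exact Submodule.subset_span (by simp)
  · exact (h1 _).2 (h 0)
  · exact (h1 _).2 (h 1)

theorem exists_poly {f : R2} (h : pderiv 1 f = 0) :
    ∃ P : Polynomial ℂ, f = Polynomial.aeval (X 0) P := by
  refine ⟨aeval ![Polynomial.X, 0] f, ?_⟩
  rw [aeval_two, map_sum]
  conv_lhs => rw [f.as_sum]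
  refine Finset.sum_congr rfl fun d hd => ?_
  simp [monomial_eq, Finsupp.prod_fintype, pd_zero h (mem_support_iff.1 hd)]

theorem pd_poly (P : Polynomial ℂ) :
    pderiv 0 (Polynomial.aeval (X 0 : R2) P) = Polynomial.aeval (X 0) P.derivative ∧
      pderiv 1 (Polynomial.aeval (X 0 : R2) P) = 0 := by
  simp [Derivation.map_aeval]

theorem tr_of {γ : R2 ≃ₐ[ℂ] R2} (h : pderiv 1 (γ (X 0)) = 0) : γ ∈ Tr ∧
    ∃ (c : ℂ) (P : Polynomial ℂ), c ≠ 0 ∧ γ (X 1) = C c * X 1 + Polynomial.aeval (X 0) P := by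
  obtain ⟨c, hc, h1⟩ := jac_unit γ
  rw [jac_apply, h, zero_mul, sub_zero] at h1
  have h2 : IsUnit (C c : R2) := hc.isUnit.map C
  obtain ⟨α, -, h3⟩ := isUnit_iff_eq_C_of_isReduced.1 (isUnit_of_mul_isUnit_left (h1 ▸ h2))
  obtain ⟨β, h4, h5⟩ := isUnit_iff_eq_C_of_isReduced.1 (isUnit_of_mul_isUnit_right (h1 ▸ h2))
  constructor
  · refine mem_Tr.2 ⟨(γ (X 0) - C α * X 0).coeff 0, α, eq_add_of_sub_eq ?_⟩
    refine totalDegree_eq_zero_iff_eq_C.1 ((totalDegree_eq_zero_iff _ _).2 fun d hd i => ?_)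
    refine pd_zero ?_ (mem_support_iff.1 hd)
    fin_cases i <;> simp [h, h3]
  · obtain ⟨P, hP⟩ := exists_poly (f := γ (X 1) - C β * X 1) (by simp [h5])
    exact ⟨β, P, h4.ne_zero, eq_add_of_sub_eq' hP⟩

theorem jung (γ : R2 ≃ₐ[ℂ] R2) : γ ∈ Af ⊔ Tr := by
  let s : R2 ≃ₐ[ℂ] R2 := renameEquiv ℂ (Equiv.swap 0 1)
  have hs : s ∈ Af := mem_Af.2 fun i => by
    fin_cases i
    · exact ⟨0, 0, 1, by simp [s]⟩
    · exact ⟨0, 1, 0, by simp [s]⟩
  have s0 : ∀ f, (s f).degreeOf 0 = f.degreeOf 1 := fun f => by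
    simpa [s] using degreeOf_rename_of_injective (p := f) (Equiv.swap 0 1).injective 1
  have s1 : ∀ f, (s f).degreeOf 1 = f.degreeOf 0 := fun f => by
    simpa [s] using degreeOf_rename_of_injective (p := f) (Equiv.swap 0 1).injective 0
  have h0 : ∀ γ : R2 ≃ₐ[ℂ] R2, (γ (X 0)).degreeOf 1 = 0 → γ ∈ Af ⊔ Tr := fun γ h =>
    Subgroup.mem_sup_right (tr_of (pderiv_eq_zero_of_notMem_vars
      (by rwa [mem_vars_iff_degreeOf_ne_zero, not_not]))).1
  have ht : ∀ μ a, tri μ a ∈ Af ⊔ Tr := fun μ a =>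
    Subgroup.mem_sup_right (mem_Tr.2 ⟨0, 1, by simp [tri]⟩)
  induction h : (γ (X 0)).degreeOf 0 + (γ (X 0)).degreeOf 1 using Nat.strong_induction_on
    generalizing γ with
  | _ N ih =>
  have h1 : ∀ γ : R2 ≃ₐ[ℂ] R2, (γ (X 0)).degreeOf 0 + (γ (X 0)).degreeOf 1 = N →
      0 < (γ (X 0)).degreeOf 0 → 0 < (γ (X 0)).degreeOf 1 →
      (γ (X 0)).degreeOf 1 ∣ (γ (X 0)).degreeOf 0 → γ ∈ Af ⊔ Tr := fun γ h n0 m0 h1 => by
    obtain ⟨μ, a, h2, h3⟩ := step γ rfl rfl n0 m0 h1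
    exact (Subgroup.mul_mem_cancel_left _ (ht μ a)).1 (ih _ (by omega) _ rfl)
  have h2 : s * γ ∈ Af ⊔ Tr → γ ∈ Af ⊔ Tr :=
    (Subgroup.mul_mem_cancel_left _ (Subgroup.mem_sup_left hs)).1
  rcases Nat.eq_zero_or_pos ((γ (X 0)).degreeOf 1) with m0 | m0
  · exact h0 γ m0
  rcases Nat.eq_zero_or_pos ((γ (X 0)).degreeOf 0) with n0 | n0
  · exact h2 (h0 _ ((s1 _).trans n0))
  obtain ⟨-, -, -, h3 | h3⟩ := top_data γ rfl rfl n0 m0
  · exact h1 γ h n0 m0 h3
  · refine h2 (h1 _ ?_ ?_ ?_ ?_) <;> simp only [AlgEquiv.mul_apply, s0, s1] <;> omega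

end Vale.Agent.N253
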