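import Vale.Agent.N253.Rep
import Vale.Agent.N253.Jung
import Vale.Agent.N253.Amal

/-!
# Compact groups of polynomial automorphisms of the line and of the plane are linear
-/

open MvPolynomial Matrix

noncomputable section

namespace Vale.Agent.N253

theorem deg_C_mul {c : ℂ} (hc : c ≠ 0) (f : R2) : (C c * f).totalDegree = f.totalDegree := by
  by_cases h : f = 0
  · simp [h]
  · rw [totalDegree_mul_of_isDomain (by simpa using hc) h, totalDegree_C, zero_add]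

theorem deg_C_mul_le (c : ℂ) (f : R2) : (C c * f).totalDegree ≤ f.totalDegree := by
  simpa using totalDegree_mul (C c) f

theorem deg_C_add (c : ℂ) {f : R2} (hf : 0 < f.totalDegree) :
    (C c + f).totalDegree = f.totalDegree :=
  totalDegree_add_eq_right_of_totalDegree_lt (by simpa using hf)

theorem deg_aeval {f : R2} (hf : 0 < f.totalDegree) (P : Polynomial ℂ) :
    (Polynomial.aeval f P).totalDegree = P.natDegree * f.totalDegree := by
  have h0 : f ≠ 0 := fun h => by simp [h] at hf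
  suffices h : (Polynomial.aeval f P).totalDegree = P.natDegree * f.totalDegree ∧
      (P ≠ 0 → Polynomial.aeval f P ≠ 0) from h.1
  induction P using Polynomial.recOnHorner with
  | M0 => simp
  | MC p a _ ha ih =>
    rw [map_add, Polynomial.aeval_C, algebraMap_eq, Polynomial.natDegree_add_C, add_comm]
    by_cases h1 : p.natDegree = 0
    · rw [Polynomial.eq_C_of_natDegree_eq_zero h1]
      simp_all
    · have h2 := deg_C_add a (f := Polynomial.aeval f p) (by rw [ih.1]; positivity)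
      refine ⟨h2.trans ih.1, fun _ h3 => h1 ?_⟩
      rw [h3, ih.1, totalDegree_zero] at h2
      exact (mul_eq_zero.1 h2.symm).resolve_right hf.ne'
  | MX p hp ih =>
    rw [map_mul, Polynomial.aeval_X, totalDegree_mul_of_isDomain (ih.2 hp) h0, ih.1,
      Polynomial.natDegree_mul_X hp]
    exact ⟨by ring, fun _ => mul_ne_zero (ih.2 hp) h0⟩

theorem deg_pos (γ : R2 ≃ₐ[ℂ] R2) (i : Fin 2) : 0 < (γ (X i)).totalDegree := by
  refine Nat.pos_of_ne_zero fun h => ?_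
  have h1 := totalDegree_eq_zero_iff_eq_C.1 h
  rw [← algebraMap_eq, ← γ.commutes] at h1
  simpa using congrArg totalDegree (γ.injective h1)

theorem app_aff (γ : R2 ≃ₐ[ℂ] R2) (c α β : ℂ) :
    γ (C c + C α * X 0 + C β * X 1) = C c + (C α * γ (X 0) + C β * γ (X 1)) := by
  simp only [map_add, map_mul, ← algebraMap_eq, γ.commutes, add_assoc]

theorem deg_af (γ : R2 ≃ₐ[ℂ] R2) {a : R2 ≃ₐ[ℂ] R2} (ha : a ∈ Af) {D : ℕ}
    (h : ∀ i, (γ (X i)).totalDegree ≤ D) (i : Fin 2) : ((γ * a) (X i)).totalDegree ≤ D := by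
  obtain ⟨c, α, β, h1⟩ := mem_Af.1 ha i
  rw [AlgEquiv.mul_apply, h1, app_aff]
  exact (totalDegree_add _ _).trans (max_le (by simp) ((totalDegree_add _ _).trans
    (max_le ((deg_C_mul_le _ _).trans (h 0)) ((deg_C_mul_le _ _).trans (h 1)))))

/-- the second component has larger degree -/
def Up (γ : R2 ≃ₐ[ℂ] R2) : Prop := (γ (X 0)).totalDegree < (γ (X 1)).totalDegree

theorem Up.af {γ a : R2 ≃ₐ[ℂ] R2} (h : Up γ) (ha : a ∈ Af) (hb : a ∉ Tr) :
    ((γ * a) (X 0)).totalDegree = (γ (X 1)).totalDegree ∧ ¬ Up (γ * a) := by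
  have h0 : ((γ * a) (X 0)).totalDegree = (γ (X 1)).totalDegree := by
    obtain ⟨c, α, β, h1⟩ := mem_Af.1 ha 0
    have h2 : β ≠ 0 := fun h2 => hb (mem_Tr.2 ⟨c, α, by simp [h1, h2]⟩)
    have h3 : (C α * γ (X 0) + C β * γ (X 1)).totalDegree = (γ (X 1)).totalDegree := by
      rw [totalDegree_add_eq_right_of_totalDegree_lt, deg_C_mul h2]
      rw [deg_C_mul h2]
      exact (deg_C_mul_le _ _).trans_lt h
    rw [AlgEquiv.mul_apply, h1, app_aff, deg_C_add _ (h3 ▸ deg_pos γ 1), h3]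
  exact ⟨h0, not_lt.2 (h0 ▸ deg_af γ ha (Fin.forall_fin_two.2 ⟨h.le, le_rfl⟩) 1)⟩

theorem tr_form {b : R2 ≃ₐ[ℂ] R2} (hb : b ∈ Tr) : ∃ (c α β : ℂ) (P : Polynomial ℂ), α ≠ 0 ∧
    b (X 0) = C c + C α * X 0 ∧ b (X 1) = C β * X 1 + Polynomial.aeval (X 0) P := by
  obtain ⟨c, α, h1⟩ := mem_Tr.1 hb
  obtain ⟨β, P, -, h2⟩ := (tr_of (γ := b) (by simp [h1])).2
  exact ⟨c, α, β, P, fun h => by simpa [h1, h] using deg_pos b 0, h1, h2⟩

theorem up_tr {γ b : R2 ≃ₐ[ℂ] R2} (h : ¬ Up γ) (hb : b ∈ Tr) (ha : b ∉ Af) :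
    ((γ * b) (X 0)).totalDegree = (γ (X 0)).totalDegree ∧ Up (γ * b) := by
  obtain ⟨c, α, β, P, h1, h2, h3⟩ := tr_form hb
  have h4 := deg_pos γ 0
  have h0 : ((γ * b) (X 0)).totalDegree = (γ (X 0)).totalDegree := by
    have h5 := app_aff γ c α 0
    simp only [C_0, zero_mul, add_zero] at h5
    rw [AlgEquiv.mul_apply, h2, h5, deg_C_add _ (by rwa [deg_C_mul h1]), deg_C_mul h1]
  have h5 : 1 < P.natDegree := not_le.1 fun h5 => ha (mem_Af.2 (Fin.forall_fin_two.2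
    ⟨⟨c, α, 0, by simp [h2]⟩, P.coeff 0, P.coeff 1, β, by
      rw [h3]
      conv_lhs => rw [Polynomial.eq_X_add_C_of_natDegree_le_one h5]
      simp
      ring⟩))
  have h6 : (γ (X 0)).totalDegree < (Polynomial.aeval (γ (X 0)) P).totalDegree := by
    rw [deg_aeval h4]
    nlinarith
  refine ⟨h0, ?_⟩
  rw [Up, h0, AlgEquiv.mul_apply, h3, map_add, map_mul, ← algebraMap_eq, γ.commutes,
    ← Polynomial.aeval_algHom_apply, totalDegree_add_eq_right_of_totalDegree_lt]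
  · exact h6
  · exact ((deg_C_mul_le _ _).trans (not_lt.1 h)).trans_lt h6

theorem not_up {a : R2 ≃ₐ[ℂ] R2} (ha : a ∈ Af) : ¬ Up a :=
  not_lt.2 ((by simpa using deg_af 1 ha (D := 1) (by simp) 1 : _ ≤ 1).trans (deg_pos a 0))

theorem wd_up {k : ℕ} {ψ a : R2 ≃ₐ[ℂ] R2} (ha : a ∈ Af) (h : Wd Af Tr k ψ) :
    Up (a * ψ) ∧ k ≤ ((a * ψ) (X 0)).totalDegree := by
  induction h with
  | one h1 h2 => exact ⟨(up_tr (not_up ha) h1 h2).2, deg_pos _ 0⟩
  | snoc _ h1 h2 h3 h4 ih =>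
    have h5 := ih.1.af h1 h2
    have h6 := up_tr h5.2 h3 h4
    rw [← mul_assoc, ← mul_assoc, h6.1, h5.1]
    exact ⟨h6.2, ih.2.trans_lt ih.1⟩

theorem conj_bdd (K : Subgroup (R2 ≃ₐ[ℂ] R2)) {D : ℕ}
    (hK : ∀ γ ∈ K, ∀ i, (γ (X i)).totalDegree ≤ D) : ∃ t, cj t K ≤ Af ∨ cj t K ≤ Tr := by
  refine amal jung (up := Up) (fun _ _ _ ha h => (wd_up ha h).1)
    (fun _ _ _ ha _ h1 h2 h => ((wd_up ha h).1.af h1 h2).2) (fun _ => not_up) (D + 1) K ?_
  rintro _ h k ⟨a, ha, a', ha', ψ, hψ, rfl⟩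
  have h1 := deg_af _ (Af.inv_mem ha') (hK _ h) 0
  rw [mul_inv_cancel_right] at h1
  exact Nat.lt_succ_of_le ((wd_up ha hψ).2.trans h1)

section

variable {n : ℕ} {K W : Type} [Group K] {f : K → (Fin n → ℂ) → Fin n → ℂ}
  [NormedAddCommGroup W] [InnerProductSpace ℂ W] [FiniteDimensional ℂ W]
  {j : W →ₗ[ℂ] MvPolynomial (Fin n) ℂ} {ρ : K → W →ₗ[ℂ] W}

variable (f) in
/-- the action is unitary in polynomial coordinates -/
def Lin : Prop := ∃ P Q : Fin n → MvPolynomial (Fin n) ℂ,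
  (∀ z, (fun i => eval (fun k => eval z (P k)) (Q i)) = z) ∧
  (∀ z, (fun i => eval (fun k => eval z (Q k)) (P i)) = z) ∧
  ∀ g, ∃ U ∈ unitaryGroup (Fin n) ℂ,
    ∀ z, (fun k => eval (f g z) (P k)) = U *ᵥ fun k => eval z (P k)

omit [Group K] [FiniteDimensional ℂ W] in
theorem lin_of_basis (hρ : ∀ g w z, eval z (j (ρ g w)) = eval (f g z) (j w))
    (hi : ∀ g v w, inner ℂ (ρ g v) (ρ g w) = inner ℂ v w) (b : OrthonormalBasis (Fin n) ℂ W)
    (h2 : ∀ S : Subalgebra ℂ (MvPolynomial (Fin n) ℂ), (∀ w, j w ∈ S) → ∀ i, X i ∈ S) :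
    Lin f := by
  obtain ⟨P, hP⟩ : ∃ P : Fin n → MvPolynomial (Fin n) ℂ, ∀ k, j (b k) = P k := ⟨_, fun _ => rfl⟩
  choose Q hQ using fun i => (AlgHom.mem_range _).1 (h2 (bind₁ P).range (fun w => by
    rw [← b.sum_repr w, map_sum]
    refine Subalgebra.sum_mem _ fun k _ => ?_
    rw [map_smul, hP]
    exact Subalgebra.smul_mem _ ((AlgHom.mem_range _).2 ⟨X k, bind₁_X_right _ k⟩) _) i)
  have h3 : ∀ z, (fun i => eval (fun k => eval z (P k)) (Q i)) = z := fun z => funext fun i => by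
    rw [← eval_bind, hQ, eval_X]
  refine ⟨P, Q, h3, fun z => ?_, fun g => ?_⟩
  · obtain ⟨y, rfl⟩ := ax_grothendieck_univ P
      (Function.LeftInverse.injective (g := fun w i => eval w (Q i)) h3) z
    rw [h3]
  · obtain ⟨U, h4, h5⟩ := unit_mat b (hi g)
    refine ⟨U, h4, fun z => funext fun k => ?_⟩
    simp only [← hP, ← hρ, h5, map_sum, map_smul, smul_eval]
    rfl

omit [Group K] in
theorem lin_of (hρ : ∀ g w z, eval z (j (ρ g w)) = eval (f g z) (j w))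
    (hi : ∀ g v w, inner ℂ (ρ g v) (ρ g w) = inner ℂ v w) (v : Fin n → W)
    (hv : LinearIndependent ℂ v) (h1 : ∀ g i, ρ g (v i) ∈ Submodule.span ℂ (Set.range v))
    (h2 : ∀ S : Subalgebra ℂ (MvPolynomial (Fin n) ℂ), (∀ i, j (v i) ∈ S) → ∀ i, X i ∈ S) :
    Lin f := by
  have hV : ∀ g, ∀ w ∈ Submodule.span ℂ (Set.range v), ρ g w ∈ Submodule.span ℂ (Set.range v) :=
    fun g _ hw => (Submodule.span_le (p := (Submodule.span ℂ (Set.range v)).comap (ρ g))).2
      (Set.range_subset_iff.2 (h1 g)) hw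
  exact lin_of_basis (j := j.comp (Submodule.span ℂ (Set.range v)).subtype)
    (ρ := fun g => (ρ g).restrict (hV g)) (fun g w => hρ g w) (fun g v w => hi g v w)
    ((stdOrthonormalBasis ℂ _).reindex
      (finCongr ((finrank_span_eq_card hv).trans (Fintype.card_fin n))))
    fun S hS => h2 S fun i => hS ⟨v i, Submodule.subset_span ⟨i, rfl⟩⟩

omit [FiniteDimensional ℂ W] in
theorem perp_inv (ra : ∀ g v w, inner ℂ (ρ g v) w = inner ℂ v (ρ g⁻¹ w)) {U : Submodule ℂ W}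
    (hU : ∀ g, ∀ w ∈ U, ρ g w ∈ U) (g : K) : ∀ z ∈ Uᗮ, ρ g z ∈ Uᗮ := fun _ hz =>
  (U.mem_orthogonal' _).2 fun u hu => by
    rw [ra]
    exact (U.mem_orthogonal' _).1 hz _ (hU _ u hu)

omit [FiniteDimensional ℂ W] in
theorem perp (ra : ∀ g v w, inner ℂ (ρ g v) w = inner ℂ v (ρ g⁻¹ w)) {U V : Submodule ℂ W}
    (hU : ∀ g, ∀ w ∈ U, ρ g w ∈ U) (hV : V ≤ Uᗮ) {z : W} (hz : z ∈ Uᗮ) {g : K}
    (h : ρ g z ∈ U ⊔ V) : ρ g z ∈ V := by
  obtain ⟨a, ha, b, hb, h1⟩ := Submodule.mem_sup.1 h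
  have h2 := perp_inv ra hU g z hz
  have h3 : a ∈ Uᗮ := by
    rw [eq_sub_of_add_eq h1]
    exact Uᗮ.sub_mem h2 (hV hb)
  rwa [← h1, (Submodule.disjoint_def.1 U.orthogonal_disjoint) a ha h3, zero_add]

omit [FiniteDimensional ℂ W] in
theorem adj (f1 : ∀ z, f 1 z = z) (fm : ∀ g h z, f (g * h) z = f g (f h z))
    (hj : Function.Injective j) (hρ : ∀ g w z, eval z (j (ρ g w)) = eval (f g z) (j w))
    (hi : ∀ g v w, inner ℂ (ρ g v) (ρ g w) = inner ℂ v w) (g : K) (v w : W) :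
    inner ℂ (ρ g v) w = inner ℂ v (ρ g⁻¹ w) := by
  rw [← hi g v]
  exact congrArg _ (hj (MvPolynomial.funext fun z => by rw [hρ, hρ, ← fm, inv_mul_cancel, f1]))

theorem exists_aut (f1 : ∀ z, f 1 z = z) (fm : ∀ g h z, f (g * h) z = f g (f h z))
    (hf : ∀ g i, ∃ R : MvPolynomial (Fin n) ℂ, ∀ z, f g z i = eval z R) :
    ∃ γ : K → MvPolynomial (Fin n) ℂ ≃ₐ[ℂ] MvPolynomial (Fin n) ℂ,
      ∀ g z R, eval z (γ g R) = eval (f g z) R := by
  choose P hP using hf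
  obtain ⟨T, hb⟩ : ∃ T : K → MvPolynomial (Fin n) ℂ →ₐ[ℂ] MvPolynomial (Fin n) ℂ,
      ∀ g z R, eval z (T g R) = eval (f g z) R :=
    ⟨fun g => bind₁ (P g), fun g z R => by
      rw [funext fun j => hP g j z]
      exact eval_bind z (P g) R⟩
  have h : ∀ g h, h * g = 1 → (T g).comp (T h) = AlgHom.id ℂ _ := fun g h h1 =>
    AlgHom.ext fun R => MvPolynomial.funext fun z => by
      rw [AlgHom.comp_apply, hb, hb, ← fm, h1, f1, AlgHom.id_apply]
  exact ⟨fun g => AlgEquiv.ofAlgHom (T g) (T g⁻¹) (h _ _ (inv_mul_cancel g))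
    (h _ _ (mul_inv_cancel g)), hb⟩

end

variable {K : Type} [Group K] [TopologicalSpace K] [IsTopologicalGroup K] [CompactSpace K]

theorem lin_two {f : K → (Fin 2 → ℂ) → Fin 2 → ℂ} (f1 : ∀ z, f 1 z = z)
    (fm : ∀ g h z, f (g * h) z = f g (f h z)) (hc : ∀ z, Continuous fun g => f g z)
    (hf : ∀ g i, ∃ R : R2, ∀ z, f g z i = eval z R) : Lin f := by
  obtain ⟨γ, hγ⟩ := exists_aut f1 fm hf
  obtain ⟨D, hD⟩ : ∃ D, ∀ g i, (γ g (X i)).totalDegree ≤ D := by
    obtain ⟨N, P, L, -, h1, h2⟩ := (rep f1 fm hc hf X).model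
    refine ⟨∑ k, (P k).totalDegree, fun g i => ?_⟩
    obtain ⟨U, -, h3⟩ := h2 g
    have h4 : γ g (X i) = ∑ k, (L * U) i k • P k := MvPolynomial.funext fun z => by
      rw [hγ, eval_X, ← h1 (f g z), h3, mulVec_mulVec]
      simp only [map_sum, smul_eval]
      rfl
    rw [h4]
    exact totalDegree_finsetSum_le fun k _ => (totalDegree_smul_le _ _).trans
      (Finset.single_le_sum (f := fun k => (P k).totalDegree) (fun _ _ => Nat.zero_le _)
        (Finset.mem_univ k))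
  let G : Subgroup (R2 ≃ₐ[ℂ] R2) :=
    { carrier := Set.range γ
      one_mem' := ⟨1, AlgEquiv.ext fun R => MvPolynomial.funext fun z => by rw [hγ, f1]; rfl⟩
      mul_mem' := by
        rintro _ _ ⟨g, rfl⟩ ⟨h, rfl⟩
        exact ⟨h * g, AlgEquiv.ext fun R => MvPolynomial.funext fun z => by
          rw [AlgEquiv.mul_apply, hγ, hγ, hγ, fm]⟩
      inv_mem' := by
        rintro _ ⟨g, rfl⟩
        exact ⟨g⁻¹, eq_inv_of_mul_eq_one_right (AlgEquiv.ext fun R => MvPolynomial.funext fun z => by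
          rw [AlgEquiv.mul_apply, hγ, hγ, ← fm, inv_mul_cancel, f1]; rfl)⟩ }
  obtain ⟨t, ht⟩ := conj_bdd G (D := D) (by rintro _ ⟨g, rfl⟩; exact hD g)
  obtain ⟨u, rfl⟩ : ∃ u, t = u⁻¹ := ⟨t⁻¹, (inv_inv t).symm⟩
  have h0 : ∀ g, u⁻¹ * γ g * u ∈ cj u⁻¹ G := fun g => mem_cj.2 ⟨g, by simp [mul_assoc]⟩
  have h0' : ∀ g R, γ g (u R) = u ((u⁻¹ * γ g * u) R) := fun g R => (u.apply_symm_apply _).symm
  obtain ⟨W, _, _, _, j, ρ, hj, hS, hρ, hi⟩ := rep f1 fm hc hf ![1, u (X 0), u (X 1)]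
  have hC : ∀ g c, γ g (C c) = C c := fun g c => (γ g).commutes c
  have hργ : ∀ g w, j (ρ g w) = γ g (j w) := fun g w => MvPolynomial.funext fun z => by rw [hρ, hγ]
  have ra := adj f1 fm hj hρ hi
  obtain ⟨e, he : j e = 1⟩ := hS 0
  obtain ⟨x, hx : j x = u (X 0)⟩ := hS 1
  obtain ⟨y, hy : j y = u (X 1)⟩ := hS 2
  have hU : ∀ g, ∀ w ∈ ℂ ∙ e, ρ g w ∈ ℂ ∙ e := fun g w hw => by
    obtain ⟨c, rfl⟩ := Submodule.mem_span_singleton.1 hw
    rwa [map_smul, show ρ g e = e from hj (by rw [hργ, he, map_one])]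
  obtain ⟨_, h1, x', hx', rfl⟩ := (ℂ ∙ e).exists_add_mem_mem_orthogonal x
  obtain ⟨β, rfl⟩ := Submodule.mem_span_singleton.1 h1
  replace hx : j x' = u (X 0) - C β := by rw [← hx, map_add, map_smul, he, smul_eq_C_mul]; ring
  suffices h : ∃ (y' : W) (P : Polynomial ℂ), j y' = u (X 1) - Polynomial.aeval (u (X 0)) P ∧
      ∀ g i, ρ g (![x', y'] i) ∈ Submodule.span ℂ {x', y'} by
    obtain ⟨y', P, h2, h3⟩ := h
    refine lin_of hρ hi ![x', y'] (LinearIndependent.pair_iff.2 fun s t h => ?_)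
      (by simpa only [Matrix.range_cons, Matrix.range_empty, Set.union_empty,
        Set.singleton_union] using h3) fun S hS i => ?_
    · have h4 : s • (X 0 - C β) + t • (X 1 - Polynomial.aeval (X 0 : R2) P) = 0 :=
        u.injective (by
          simpa only [map_add, map_smul, map_sub, hx, h2, map_zero, ← algebraMap_eq, u.commutes,
            ← Polynomial.aeval_algHom_apply] using congrArg j h)
      have h5 : t = 0 := by simpa [(pd_poly P).2] using congrArg (pderiv 1) h4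
      exact ⟨by simpa [h5] using congrArg (pderiv 0) h4, h5⟩
    · have h4 : u (X 0) ∈ S := by simpa [hx] using S.add_mem (hS 0) (S.algebraMap_mem β)
      have h5 : u (X 1) ∈ S := by
        simpa [h2] using S.add_mem (hS 1) (Algebra.adjoin_le (Set.singleton_subset_iff.2 h4)
          (Polynomial.aeval_mem_adjoin_singleton ℂ (p := P) _))
      have h6 : (⊤ : Subalgebra ℂ R2) ≤ S.comap (u : R2 →ₐ[ℂ] R2) := by
        rw [← adjoin_range_X]
        exact Algebra.adjoin_le (Set.range_subset_iff.2 (Fin.forall_fin_two.2 ⟨h4, h5⟩))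
      exact u.apply_symm_apply (X i) ▸ h6 (Algebra.mem_top (x := u.symm (X i)))
  rcases ht with ht | ht
  · obtain ⟨_, h2, y', hy', rfl⟩ := (ℂ ∙ e).exists_add_mem_mem_orthogonal y
    obtain ⟨β', rfl⟩ := Submodule.mem_span_singleton.1 h2
    replace hy : j y' = u (X 1) - C β' := by rw [← hy, map_add, map_smul, he, smul_eq_C_mul]; ring
    refine ⟨y', Polynomial.C β', by simpa using hy, fun g i => ?_⟩
    have h3 : ∀ i, ∃ c, j (![x', y'] i) = u (X i) - C c :=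
      Fin.forall_fin_two.2 ⟨⟨_, hx⟩, _, hy⟩
    obtain ⟨c', h3⟩ := h3 i
    obtain ⟨c, α, δ, h4⟩ := mem_Af.1 (ht (h0 g)) i
    refine perp ra hU (Submodule.span_le.2 (Set.pair_subset hx' hy'))
      (Fin.forall_fin_two (p := fun i => ![x', y'] i ∈ _).2 ⟨hx', hy'⟩ i)
      (Submodule.mem_sup.2 ⟨(c - c' + α * β + δ * β') • e, Submodule.smul_mem _ _
        (Submodule.mem_span_singleton_self e), α • x' + δ • y',
        Submodule.mem_span_pair.2 ⟨_, _, rfl⟩, hj ?_⟩)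
    rw [hργ, h3, map_sub, h0', h4, app_aff, hC]
    simp only [map_add, map_smul, he, hx, hy, smul_eq_C_mul, map_sub, map_mul]
    ring
  · let U := (Polynomial.aeval (R := ℂ) (u (X 0))).range.toSubmodule.comap j
    choose c α δ P h2 h3 h4 using fun g => tr_form (ht (h0 g))
    have h5 : ∀ g, γ g (u (X 0)) = C (c g) + C (α g) * u (X 0) := fun g => by
      simp only [h0', h3, map_add, map_mul, ← algebraMap_eq, u.commutes]
    have h6 : ∀ g, ∀ w ∈ U, ρ g w ∈ U := by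
      rintro g w ⟨Q, hQ⟩
      refine ⟨Q.comp (Polynomial.C (c g) + Polynomial.C (α g) * Polynomial.X), ?_⟩
      rw [hργ, ← hQ]
      simp [Polynomial.aeval_comp, ← Polynomial.aeval_algHom_apply, h5]
    obtain ⟨w, hw, y', hy', rfl⟩ := U.exists_add_mem_mem_orthogonal y
    obtain ⟨Q, hQ⟩ := id hw
    replace hy : j y' = u (X 1) - j w := by rw [← hy, map_add]; ring
    refine ⟨y', Q, hy.trans (congrArg _ hQ.symm), fun g => Fin.forall_fin_two.2 ⟨?_, ?_⟩⟩
    · refine Submodule.span_mono (Set.singleton_subset_iff.2 (Set.mem_insert _ _)) (perp ra hU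
        (Submodule.span_le.2 (Set.singleton_subset_iff.2 hx')) hx'
        (Submodule.mem_sup.2 ⟨(c g - β + α g * β) • e, Submodule.smul_mem _ _
          (Submodule.mem_span_singleton_self e), α g • x', Submodule.smul_mem _ _
          (Submodule.mem_span_singleton_self x'), hj ?_⟩))
      rw [hργ, hx, map_sub, h5, hC]
      simp only [map_add, map_smul, he, hx, smul_eq_C_mul, map_sub, map_mul]
      ring
    · refine Submodule.span_mono (Set.subset_insert x' {y'})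
        (perp (V := ℂ ∙ y') (z := y') ra h6 (Submodule.span_le.2 (Set.singleton_subset_iff.2 hy')) hy'
        (Submodule.mem_sup.2 ⟨ρ g y' - δ g • y', ?_, δ g • y', Submodule.smul_mem _ _
          (Submodule.mem_span_singleton_self y'), sub_add_cancel _ _⟩))
      obtain ⟨Q', hQ'⟩ := h6 g w hw
      refine ⟨P g - Q' + Polynomial.C (δ g) * Q, ?_⟩
      rw [hργ] at hQ'
      change Polynomial.aeval _ _ = _ at hQ hQ' ⊢
      rw [map_sub j, map_smul, hργ, hy, map_sub, h0', h4, ← hQ', ← hQ]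
      simp only [map_add, map_sub, map_mul, smul_eq_C_mul, Polynomial.aeval_C, ← algebraMap_eq,
        u.commutes, ← Polynomial.aeval_algHom_apply]
      ring

theorem aff_one (γ : MvPolynomial (Fin 1) ℂ ≃ₐ[ℂ] MvPolynomial (Fin 1) ℂ) :
    ∃ c α : ℂ, γ (X 0) = C c + C α * X 0 := by
  have h1 : ∀ u, pderiv 0 (γ u) = pderiv 0 (γ (X 0)) * γ (pderiv 0 u) := fun u => by
    induction u using MvPolynomial.induction_on with
    | C c => rw [← algebraMap_eq, γ.commutes]; simp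
    | add p q hp hq => simp only [map_add, hp, hq]; ring
    | mul_X p i hp => fin_cases i; simp [hp]; ring
  have h2 := h1 (γ.symm (X 0))
  rw [γ.apply_symm_apply, pderiv_X_self] at h2
  obtain ⟨α, -, h3⟩ := isUnit_iff_eq_C_of_isReduced.1 (IsUnit.of_mul_eq_one _ h2.symm)
  refine ⟨(γ (X 0) - C α * X 0).coeff 0, α, eq_add_of_sub_eq ?_⟩
  refine totalDegree_eq_zero_iff_eq_C.1 ((totalDegree_eq_zero_iff _ _).2 fun d hd i => ?_)
  refine pd_zero ?_ (mem_support_iff.1 hd)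
  fin_cases i
  simp [h3]

theorem lin_one {f : K → (Fin 1 → ℂ) → Fin 1 → ℂ} (f1 : ∀ z, f 1 z = z)
    (fm : ∀ g h z, f (g * h) z = f g (f h z)) (hc : ∀ z, Continuous fun g => f g z)
    (hf : ∀ g i, ∃ R : MvPolynomial (Fin 1) ℂ, ∀ z, f g z i = eval z R) : Lin f := by
  obtain ⟨γ, hγ⟩ := exists_aut f1 fm hf
  obtain ⟨W, _, _, _, j, ρ, hj, hS, hρ, hi⟩ := rep f1 fm hc hf ![1, X 0]
  have hC : ∀ g c, γ g (C c) = C c := fun g c => (γ g).commutes c
  have hργ : ∀ g w, j (ρ g w) = γ g (j w) := fun g w => MvPolynomial.funext fun z => by rw [hρ, hγ]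
  obtain ⟨e, he : j e = 1⟩ := hS 0
  obtain ⟨x, hx : j x = X 0⟩ := hS 1
  have hU : ∀ g, ∀ w ∈ ℂ ∙ e, ρ g w ∈ ℂ ∙ e := fun g w hw => by
    obtain ⟨c, rfl⟩ := Submodule.mem_span_singleton.1 hw
    rwa [map_smul, show ρ g e = e from hj (by rw [hργ, he, map_one])]
  obtain ⟨_, h1, x', hx', rfl⟩ := (ℂ ∙ e).exists_add_mem_mem_orthogonal x
  obtain ⟨β, rfl⟩ := Submodule.mem_span_singleton.1 h1
  replace hx : j x' = X 0 - C β := by rw [← hx, map_add, map_smul, he, smul_eq_C_mul]; ring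
  refine lin_of hρ hi (fun _ => x') (linearIndependent_unique_iff.2 fun h => ?_) (fun g _ => ?_)
    fun S hS i => ?_
  · simpa [h] using congrArg (pderiv 0) hx
  · obtain ⟨c, α, h2⟩ := aff_one (γ g)
    rw [Set.range_const]
    refine perp (adj f1 fm hj hρ hi) hU (Submodule.span_le.2 (Set.singleton_subset_iff.2 hx')) hx'
      (Submodule.mem_sup.2 ⟨(c - β + α * β) • e, Submodule.smul_mem _ _
        (Submodule.mem_span_singleton_self e), α • x', Submodule.smul_mem _ _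
        (Submodule.mem_span_singleton_self x'), hj ?_⟩)
    rw [hργ, hx, map_sub, h2, hC]
    simp only [map_add, map_smul, he, hx, smul_eq_C_mul, map_sub, map_mul]
    ring
  · simpa [hx, Subsingleton.elim i 0] using S.add_mem (hS 0) (S.algebraMap_mem β)

theorem mem_eq {R S : Type} [SetLike S R] {s : S} {a b : R} (h : a ∈ s) (e : a = b) : b ∈ s :=
  e ▸ h

section

variable {n : ℕ} (z : Fin n → ℂ)

theorem taylor (R : MvPolynomial (Fin n) ℂ) : ∃ a : Fin n → ℂ,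
    R - C (eval z R) - ∑ i, C (a i) * (X i - C (z i)) ∈ RingHom.ker (eval z) ^ 2 := by
  classical
  have h0 : ∀ i, X i - C (z i) ∈ RingHom.ker (eval z) := fun i => by simp [RingHom.mem_ker]
  induction R using MvPolynomial.induction_on with
  | C c => exact ⟨0, by simp⟩
  | add p q hp hq =>
    obtain ⟨a, ha⟩ := hp
    obtain ⟨b, hb⟩ := hq
    refine ⟨a + b, mem_eq (Ideal.add_mem _ ha hb) ?_⟩
    simp only [map_add, Pi.add_apply, add_mul, Finset.sum_add_distrib]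
    ring
  | mul_X p i hp =>
    obtain ⟨a, ha⟩ := hp
    have h1 := Ideal.mul_mem_mul (Ideal.sum_mem _ fun l (_ : l ∈ Finset.univ) =>
      Ideal.mul_mem_left _ (C (a l)) (h0 l)) (h0 i)
    rw [← pow_two] at h1
    refine ⟨z i • a + Pi.single i (eval z p),
      mem_eq (Ideal.add_mem _ (Ideal.mul_mem_right (X i) _ ha) h1) ?_⟩
    simp only [map_add, Pi.add_apply, add_mul, Finset.sum_add_distrib, Pi.smul_apply, smul_eq_mul,
      map_mul, mul_assoc, ← Finset.mul_sum, Pi.single_apply, apply_ite C, C_0, ite_mul, zero_mul,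
      Finset.sum_ite_eq', Finset.mem_univ, if_true, eval_X]
    ring

theorem pd_sq {R : MvPolynomial (Fin n) ℂ} (h : R ∈ RingHom.ker (eval z) ^ 2) (i : Fin n) :
    eval z (pderiv i R) = 0 := by
  rw [pow_two] at h
  refine Submodule.mul_induction_on h (fun a ha b hb => ?_) fun a b ha hb => ?_
  · simp [RingHom.mem_ker.1 ha, RingHom.mem_ker.1 hb]
  · rw [map_add, map_add, ha, hb, add_zero]

end

theorem nakayama {R : Type} [CommRing R] [Algebra ℂ R] {m : Ideal R} {B : Subalgebra ℂ R}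
    (h : ∀ r ∈ m, ∃ b ∈ B, r - b ∈ m ^ 2) (k : ℕ) : ∀ r ∈ m, ∃ b ∈ B, r - b ∈ m ^ (k + 1) := by
  have h1 : ∀ k, ∀ r ∈ m ^ (k + 1), ∃ b ∈ B, r - b ∈ m ^ (k + 2) := fun k => by
    induction k with
    | zero => simpa using h
    | succ k ih =>
      intro r hr
      rw [pow_succ] at hr
      refine Submodule.mul_induction_on hr (fun a ha c hc => ?_) ?_
      · obtain ⟨a', h1, h2⟩ := ih a ha
        obtain ⟨c', h3, h4⟩ := h c hc
        have h5 : c' ∈ m := by simpa using m.sub_mem hc (Ideal.pow_le_self two_ne_zero h4)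
        have h6 := Ideal.mul_mem_mul ha h4
        have h7 := Ideal.mul_mem_mul h2 h5
        rw [← pow_add] at h6
        rw [← pow_succ] at h7
        exact ⟨a' * c', B.mul_mem h1 h3, mem_eq (Ideal.add_mem _ h6 h7) (by ring)⟩
      · rintro x y ⟨a, h1, h2⟩ ⟨c, h3, h4⟩
        exact ⟨a + c, B.add_mem h1 h3, mem_eq (Ideal.add_mem _ h2 h4) (by ring)⟩
  induction k with
  | zero => exact fun r hr => ⟨0, B.zero_mem, by simpa using hr⟩
  | succ k ih =>
    intro r hr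
    obtain ⟨b, h2, h3⟩ := ih r hr
    obtain ⟨c, h4, h5⟩ := h1 k _ h3
    exact ⟨b + c, B.add_mem h2 h4, mem_eq h5 (by ring)⟩

theorem weight_mem {R A ι : Type} [CommRing R] [Algebra ℂ R] {B : Subalgebra ℂ R}
    {γ : A → R ≃ₐ[ℂ] R} (hB : ∀ a, ∀ b ∈ B, γ a b ∈ B) {l : A → ℂ} {μ : ι → A → ℂ} {e : R}
    (he : ∀ a, γ a e = l a • e) (s : Finset ι) : ∀ r : ι → R, (∀ i a, γ a (r i) = μ i a • r i) →
      (∀ i ∈ s, r i ≠ 0 → μ i ≠ l) → e - ∑ i ∈ s, r i ∈ B → e ∈ B := by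
  classical
  induction s using Finset.induction_on with
  | empty => simp
  | insert i s hi ih =>
    intro r h1 h2 h3
    rw [Finset.sum_insert hi] at h3
    by_cases h0 : r i = 0
    · exact ih r h1 (fun k hk => h2 k (Finset.mem_insert_of_mem hk)) (by simpa [h0] using h3)
    obtain ⟨a, ha⟩ := Function.ne_iff.1 (h2 i (Finset.mem_insert_self _ _) h0)
    have h4 := sub_ne_zero.2 ha.symm
    refine ih (fun k => ((l a - μ i a)⁻¹ * (μ k a - μ i a)) • r k)
      (fun k a' => by rw [map_smul, h1, smul_comm])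
      (fun k hk h5 => h2 k (Finset.mem_insert_of_mem hk) (right_ne_zero_of_smul h5)) ?_
    have h5 := B.smul_mem (B.sub_mem (hB a _ h3) (B.smul_mem h3 (μ i a))) (l a - μ i a)⁻¹
    have h6 : e = (l a - μ i a)⁻¹ • (l a - μ i a) • e := (inv_smul_smul₀ h4 e).symm
    refine mem_eq h5 ?_
    conv_rhs => rw [h6]
    simp only [map_sub, map_add, map_sum, he, h1, mul_smul, ← Finset.smul_sum, sub_smul,
      Finset.sum_sub_distrib]
    module

theorem dickson {ι : Type} [Fintype ι] {S : Set (ι →₀ ℕ)} (h : ∀ α ∈ S, ∀ δ, α + δ ∈ S → δ = 0) :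
    S.Finite := by
  by_contra h0
  obtain ⟨s, t, h1, h2⟩ := wellQuasiOrdered_le fun i => (Set.Infinite.natEmbedding S h0 i).1
  obtain ⟨δ, h3⟩ := exists_add_of_le h2
  have h4 := h _ (Set.Infinite.natEmbedding S h0 s).2 δ (h3 ▸ (Set.Infinite.natEmbedding S h0 t).2)
  exact h1.ne ((Set.Infinite.natEmbedding S h0).injective
    (Subtype.ext (by rw [h3, h4, add_zero])))

theorem ker_le {n : ℕ} {ι : Type} {z : Fin n → ℂ} {E : ι → MvPolynomial (Fin n) ℂ}
    (h12 : ∀ k, E k ∈ RingHom.ker (eval z)) (h15 : Function.Surjective (aeval (R := ℂ) E))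
    (k : ℕ) {r : MvPolynomial (Fin n) ℂ} (hr : r ∈ RingHom.ker (eval z) ^ k) :
    ∃ p : MvPolynomial ι ℂ, (∀ α ∈ p.support, k ≤ α.degree) ∧ aeval E p = r := by
  classical
  have h16 : RingHom.ker (eval z) ≤ (idealOfVars ι ℂ).map (aeval (R := ℂ) E) := fun r hr => by
    obtain ⟨p, rfl⟩ := h15 r
    have h17 : p - C (p.coeff 0) ∈ idealOfVars ι ℂ ^ 1 :=
      (mem_pow_idealOfVars_iff' 1 _).2 fun d hd => by
        simp [(Finsupp.degree_eq_zero_iff d).1 (Nat.lt_one_iff.1 hd)]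
    rw [pow_one] at h17
    have h18 := Ideal.mem_map_of_mem (aeval (R := ℂ) E) h17
    have h19 : (idealOfVars ι ℂ).map (aeval (R := ℂ) E) ≤ RingHom.ker (eval z) :=
      Ideal.map_le_iff_le_comap.2
        (Ideal.span_le.2 (Set.range_subset_iff.2 fun k => by simpa using h12 k))
    have h20 : p.coeff 0 = 0 := by simpa [RingHom.mem_ker] using Ideal.sub_mem _ hr (h19 h18)
    simpa [h20] using h18
  have h1 := Ideal.pow_right_mono h16 k hr
  rw [← Ideal.map_pow] at h1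
  obtain ⟨p, h2, h3⟩ := (Ideal.mem_map_iff_of_surjective _ h15).1 h1
  exact ⟨p, (mem_pow_idealOfVars_iff _ _).1 h2, h3⟩

theorem gen_attr {n : ℕ} {A ι : Type} [Fintype ι] [CommGroup A] {z : Fin n → ℂ}
    {γ : A → MvPolynomial (Fin n) ℂ ≃ₐ[ℂ] MvPolynomial (Fin n) ℂ}
    {B : Subalgebra ℂ (MvPolynomial (Fin n) ℂ)} {E : ι → MvPolynomial (Fin n) ℂ} {χ : ι → A →* ℂˣ}
    (h11 : ∀ a, ∀ r ∈ B, γ a r ∈ B) (h12 : ∀ k, E k ∈ RingHom.ker (eval z))
    (h13 : ∀ a k, γ a (E k) = (χ k a : ℂ) • E k) (h15 : Function.Surjective (aeval (R := ℂ) E))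
    (hA' : ∀ R, (∀ a, γ a R = R) → ∃ c, R = C c)
    (h8 : ∀ r ∈ RingHom.ker (eval z), ∃ b ∈ B, r - b ∈ RingHom.ker (eval z) ^ 2) (k : ι) :
    E k ∈ B := by
  have h17 : ∀ a (α : ι →₀ ℕ), γ a (∏ k, E k ^ α k) =
      (mon α χ a : ℂ) • ∏ k, E k ^ α k := fun a α => by
    simp [h13, smul_pow, Finset.prod_smul, mon_apply]
  have h18 : {α : ι →₀ ℕ | ∏ k, E k ^ α k ≠ 0 ∧ mon α χ = χ k}.Finite := by
    refine dickson fun α h22 δ h23 => not_not.1 fun h24 => ?_
    simp only [Set.mem_ofPred_eq, mon_apply, Finsupp.add_apply, pow_add,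
      Finset.prod_mul_distrib] at h22 h23
    obtain ⟨c, h25⟩ := hA' (∏ k, E k ^ δ k) fun a => by
      rw [h17, mon_apply, mul_eq_left.1 (h23.2.trans h22.2.symm)]
      simp
    obtain ⟨l, h26⟩ := Finsupp.ne_iff.1 h24
    have h27 : ∏ k, E k ^ δ k ∈ RingHom.ker (eval z) := Ideal.prod_mem _ (Finset.mem_univ l)
      (Ideal.pow_mem_of_mem _ (h12 l) _ (Nat.pos_of_ne_zero h26))
    rw [h25, RingHom.mem_ker, eval_C] at h27
    exact h23.1 (by rw [h25, h27, C_0, mul_zero])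
  obtain ⟨r, h19, h20⟩ := nakayama h8 (h18.toFinset.sup Finsupp.degree) _ (h12 k)
  obtain ⟨p, h21, h22⟩ := ker_le h12 h15 _ h20
  refine weight_mem h11 (μ := fun α a => mon α χ a) (h13 · k) p.support
    (fun α => p.coeff α • ∏ k, E k ^ α k) (fun α a => by rw [map_smul, h17, smul_comm])
    (fun α h23 h24 h25 => ?_) ?_
  · have h26 := Finset.le_sup (f := Finsupp.degree) (h18.mem_toFinset.2
      ⟨right_ne_zero_of_smul h24, MonoidHom.ext fun a => Units.ext (congrFun h25 a)⟩)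
    exact (h21 α h23).not_gt (Nat.lt_succ_of_le h26)
  · rw [aeval_def, eval₂_eq'] at h22
    simp only [Algebra.smul_def, h22, sub_sub_cancel, h19]

theorem lin_attr {n : ℕ} {f : K → (Fin n → ℂ) → Fin n → ℂ} (f1 : ∀ z, f 1 z = z)
    (fm : ∀ g h z, f (g * h) z = f g (f h z)) (hc : ∀ z, Continuous fun g => f g z)
    (hf : ∀ g i, ∃ R : MvPolynomial (Fin n) ℂ, ∀ z, f g z i = eval z R)
    {A : Type} [CommGroup A] (u : A →* K) (hA : ∀ R : MvPolynomial (Fin n) ℂ,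
      (∀ a z, eval (f (u a) z) R = eval z R) → ∃ c, R = C c) : Lin f := by
  classical
  obtain ⟨γ, hγ⟩ := exists_aut f1 fm hf
  obtain ⟨W, _, _, _, j, ρ, hj, hS, hρ, hi⟩ := rep f1 fm hc hf fun o : Option (Fin n) => o.elim 1 X
  have hC : ∀ g c, γ g (C c) = C c := fun g c => (γ g).commutes c
  have hργ : ∀ g w, j (ρ g w) = γ g (j w) := fun g w => MvPolynomial.funext fun z => by rw [hρ, hγ]
  have ra := adj f1 fm hj hρ hi
  obtain ⟨e, he : j e = 1⟩ := hS none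
  have he' : ∀ g, ρ g e = e := fun g => hj (by rw [hργ, he, map_one])
  have hU : ∀ g, ∀ w ∈ ℂ ∙ e, ρ g w ∈ ℂ ∙ e := fun g w hw => by
    obtain ⟨c, rfl⟩ := Submodule.mem_span_singleton.1 hw
    rwa [map_smul, he']
  obtain ⟨ι, _, b, χ, hχ⟩ := eig_basis (f := fun a => f (u a)) (ρ := fun a => ρ (u a))
    (by simpa using f1) (by simp [fm]) hj (fun _ => hρ _) fun _ => hi _
  have hA' : ∀ R, (∀ a, γ (u a) R = R) → ∃ c, R = C c := fun R h => hA R fun a z => by rw [← hγ, h]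
  have h0 : ∀ a k, γ (u a) (j (b k)) = (χ k a : ℂ) • j (b k) := fun a k => by
    rw [← hργ, hχ, map_smul]
  obtain ⟨L, hL⟩ := left_inv j (fun i => hS (some i)) b
  obtain ⟨z, hz⟩ := diag (fun k => j (b k)) L hL χ fun a z =>
    ⟨f (u a) z, fun k => by rw [← hγ, h0, smul_eval]⟩
  have h1 : ∀ k, (∃ c, j (b k) = C c) ∨ eval z (j (b k)) = 0 ∧ χ k ≠ 1 := fun k => by
    by_cases h : IsOfFinOrder (χ k)
    · obtain ⟨m, h2, h3⟩ := isOfFinOrder_iff_pow_eq_one.1 h
      obtain ⟨c, h4⟩ := hA' (j (b k) ^ m) fun a => by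
        rw [map_pow, h0, smul_pow, ← Units.val_pow_eq_pow_val, ← MonoidHom.pow_apply, h3]
        simp
      by_cases h5 : c = 0
      · exact .inl ⟨0, by simpa [h5, h2.ne'] using h4⟩
      · exact .inl ((isUnit_iff_eq_C_of_isReduced.1 ((isUnit_pow_iff h2.ne').1
          (h4 ▸ (IsUnit.mk0 c h5).map C))).imp fun _ h => h.2)
    · exact .inr ⟨not_not.1 (mt (hz k) h), fun h2 => h (h2 ▸ IsOfFinOrder.one)⟩
  set m := RingHom.ker (eval z)
  have h2 : ∀ w ∈ (ℂ ∙ e)ᗮ, j w ∈ m := fun w hw => by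
    have h3 : ⊤ ≤ (ℂ ∙ e) ⊔ ((ℂ ∙ e)ᗮ ⊓ (m.restrictScalars ℂ).comap j) := by
      rw [← b.span_eq]
      refine Submodule.span_le.2 (Set.range_subset_iff.2 fun k => ?_)
      rcases h1 k with ⟨c, h⟩ | ⟨h, h'⟩
      · exact Submodule.mem_sup_left (Submodule.mem_span_singleton.2
          ⟨c, hj (by rw [map_smul, he, h, smul_eq_C_mul, mul_one])⟩)
      · refine Submodule.mem_sup_right ⟨Submodule.mem_orthogonal_singleton_iff_inner_right.2 ?_, h⟩
        obtain ⟨a, ha⟩ := DFunLike.ne_iff.1 h'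
        have h4 := hi (u a) e (b k)
        rw [he', hχ, inner_smul_right] at h4
        exact (mul_left_eq_self₀.1 h4).resolve_left fun h5 => ha (Units.ext h5)
    obtain ⟨a, ha, s, hs, rfl⟩ := Submodule.mem_sup.1 (h3 (Submodule.mem_top (x := w)))
    rw [(Submodule.disjoint_def.1 (ℂ ∙ e).orthogonal_disjoint) a ha
      (by simpa using Submodule.sub_mem _ hw hs.1), zero_add]
    exact hs.2
  have h3 : ∀ i, ∃ x ∈ (ℂ ∙ e)ᗮ, j x = X i - C (z i) := fun i => by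
    obtain ⟨x, hx : j x = X i⟩ := hS (some i)
    obtain ⟨_, h4, x', hx', rfl⟩ := (ℂ ∙ e).exists_add_mem_mem_orthogonal x
    obtain ⟨β, rfl⟩ := Submodule.mem_span_singleton.1 h4
    replace hx : j x' = X i - C β := by rw [← hx, map_add, map_smul, he, smul_eq_C_mul]; ring
    have h5 : eval z (j x') = 0 := h2 _ hx'
    rw [hx, map_sub, eval_X, eval_C, sub_eq_zero] at h5
    exact ⟨x', hx', h5 ▸ hx⟩
  choose x hx hx' using h3
  have h4 : ∀ g, f g z = z := fun g => funext fun i => by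
    have h5 : eval z (j (ρ g (x i))) = 0 := h2 _ (perp_inv ra hU g _ (hx i))
    rwa [hρ, hx', map_sub, eval_X, eval_C, sub_eq_zero] at h5
  let U := (ℂ ∙ e)ᗮ ⊓ ((m ^ 2).restrictScalars ℂ).comap j
  have h5 : ∀ g, ∀ w ∈ U, ρ g w ∈ U := fun g w hw => ⟨perp_inv ra hU g _ hw.1, by
    have h6 : m.map (γ g) ≤ m := Ideal.map_le_iff_le_comap.2 fun r hr =>
      (hγ g z r).trans (by rw [h4]; exact hr)
    change j (ρ g w) ∈ m ^ 2
    rw [hργ]
    exact Ideal.pow_right_mono h6 2 (Ideal.map_pow (γ g) m 2 ▸ Ideal.mem_map_of_mem _ hw.2)⟩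
  choose q hq v hv hqv using fun i => U.exists_add_mem_mem_orthogonal (x i)
  have h6 : ∀ i, j (v i) = X i - C (z i) - j (q i) := fun i => by rw [← hx', hqv, map_add]; ring
  have h7 : ∀ i, v i ∈ (ℂ ∙ e)ᗮ := fun i => by
    simpa [hqv] using Submodule.sub_mem _ (hx i) (hq i).1
  have h8 : ∀ r ∈ m, ∃ a : Fin n → ℂ, r - j (∑ i, a i • v i) ∈ m ^ 2 := fun r hr => by
    obtain ⟨a, ha⟩ := taylor z r
    refine ⟨a, mem_eq (Ideal.add_mem _ ha (Ideal.sum_mem _ fun i (_ : i ∈ Finset.univ) =>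
      Ideal.mul_mem_left _ (C (a i)) (hq i).2)) ?_⟩
    simp only [RingHom.mem_ker.1 hr, map_sum, map_smul, h6, smul_eq_C_mul, mul_sub,
      Finset.sum_sub_distrib, C_0]
    ring
  have h9 : ∀ g i, ρ g (v i) ∈ Submodule.span ℂ (Set.range v) := fun g i => by
    have h10 := perp_inv ra hU g _ (h7 i)
    obtain ⟨a, ha⟩ := h8 _ (h2 _ h10)
    exact perp ra h5 (Submodule.span_le.2 (Set.range_subset_iff.2 hv)) (hv i)
      (Submodule.mem_sup.2 ⟨_, ⟨Submodule.sub_mem _ h10 (Submodule.sum_mem _ fun l _ =>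
        Submodule.smul_mem _ _ (h7 l)), by rwa [← map_sub] at ha⟩, _,
        (Submodule.mem_span_range_iff_exists_fun ℂ).2 ⟨a, rfl⟩, sub_add_cancel _ _⟩)
  refine lin_of hρ hi v (Fintype.linearIndependent_iff.2 fun s hs k => ?_) h9 fun S hS' i => ?_
  · simpa [h6, fun i => pd_sq z (hq i).2 k, pderiv_X, Pi.single_apply, apply_ite (eval z)] using
      congrArg (fun w => eval z (pderiv k (j w))) hs
  let B := Algebra.adjoin ℂ (Set.range fun i => j (v i))
  have h10 : ∀ w ∈ Submodule.span ℂ (Set.range v), j w ∈ B := fun w hw =>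
    (Submodule.span_le (p := B.toSubmodule.comap j)).2
      (Set.range_subset_iff.2 fun i => Algebra.subset_adjoin ⟨i, rfl⟩) hw
  have h11 : ∀ g, ∀ r ∈ B, γ g r ∈ B := fun g r hr =>
    Algebra.adjoin_le (S := B.comap (γ g).toAlgHom) (Set.range_subset_iff.2 fun i =>
      (hργ g (v i) ▸ h10 _ (h9 g i) : γ g (j (v i)) ∈ B)) hr
  obtain ⟨E, hE⟩ : ∃ E : ι → MvPolynomial (Fin n) ℂ,
    ∀ k, E k = j (b k) - C (eval z (j (b k))) := ⟨_, fun _ => rfl⟩
  have h12 : ∀ k, E k ∈ m := fun k => by simp [m, hE, RingHom.mem_ker]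
  have h13 : ∀ a k, γ (u a) (E k) = (χ k a : ℂ) • E k := fun a k => by
    rcases h1 k with ⟨c, h⟩ | ⟨h, -⟩ <;> simp [hE, h, h0]
  have h14 : ∀ T : Subalgebra ℂ (MvPolynomial (Fin n) ℂ), (∀ k, E k ∈ T) → ∀ i, X i ∈ T := by
    intro T hT i
    obtain ⟨w, hw : j w = X i⟩ := hS (some i)
    rw [← hw, ← b.sum_repr w, map_sum]
    refine T.sum_mem fun k _ => ?_
    rw [map_smul, eq_add_of_sub_eq (hE k).symm]
    exact T.smul_mem (T.add_mem (hT k) (T.algebraMap_mem _)) _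
  have h15 : Function.Surjective (aeval (R := ℂ) E) := by
    rw [← AlgHom.range_eq_top, eq_top_iff, ← adjoin_range_X]
    exact Algebra.adjoin_le (Set.range_subset_iff.2 (h14 _ fun k => ⟨X k, aeval_X _ k⟩))
  exact Algebra.adjoin_le (Set.range_subset_iff.2 hS') (h14 B (gen_attr (fun a => h11 (u a)) h12
    h13 h15 hA' fun r hr => (h8 r hr).elim fun a ha =>
    ⟨_, h10 _ ((Submodule.mem_span_range_iff_exists_fun ℂ).2 ⟨a, rfl⟩), ha⟩) i)

end Vale.Agent.N253
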