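import Vale.Agent.N253.Defs
import Vale.Agent.N253.Iso
import Vale.Agent.N253.Lin
import Vale.Agent.P253K97.Main
import Vale.Agent.P253W.Top

/-!
# The two forms of the curvature condition; the group of holomorphic isometries
-/

set_option maxSynthPendingDepth 3
set_option linter.unusedSectionVars false

namespace Vale.Agent.N253

section

open scoped Manifold ContDiff Topology
open Bundle Filter Vale.Agent.P253K Vale.Agent.P211Z IsManifold

variable {E : Type} [NormedAddCommGroup E] [NormedSpace ℂ E] [FiniteDimensional ℂ E]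
  {M : Type} [MetricSpace M] [ChartedSpace E M]
  [IsManifold 𝓘(ℂ, E) 1 M] [RealSmooth E M] [Met E M] [SmoothMet E M]
  {cov : Conn E M} {R : Four E M}

theorem sm_J {Y : P211.NN.Field E M} {x : M} (h : Sm Y x) : Sm (fun q => J (Y q)) x := by
  have h1 := (contMDiffAt_section x).1 h
  refine (contMDiffAt_section x).2 ?_
  refine ((mulI E).contMDiffAt.comp x h1).congr_of_eventuallyEq ?_
  filter_upwards [chart_source_mem_nhds E x] with y hy
  let t := trivializationAt E (TangentSpace 𝓘(ℝ, E) : M → Type) x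
  have h2 : ∀ w : Tan E y, (t ⟨y, w⟩).2 = dif E (chartAt E x) y w := fun w => by
    have h3 := congrArg (fun L => L w)
      (TangentBundle.continuousLinearMapAt_trivializationAt (I := 𝓘(ℝ, E)) hy)
    have h4 : t.continuousLinearMapAt ℝ y w = (t ⟨y, w⟩).2 := by
      rw [t.continuousLinearMapAt_apply ℝ, t.coe_linearMapAt_of_mem hy]
    exact h4.symm.trans h3
  change (t ⟨y, J (Y y)⟩).2 = Complex.I • (t ⟨y, Y y⟩).2
  rw [h2, h2, chart_J (chart_mem_maximalAtlas x) hy]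
  rfl

theorem rm_symm (h : IsLeviCivita cov) (hR : IsCurv cov R) (x : M) :
    (∀ a b c d, R x a b c d = -R x b a c d) ∧ (∀ a b c d, R x a b c d = -R x a b d c) ∧
    (∀ a b c d, R x a b c d = R x c d a b) ∧
    ∀ a b c d, R x a b c d + R x b c a d + R x c a b d = 0 := by
  have h1 : ∀ X Y Z W : Vec E M, R x (X x) (Y x) (Z x) (W x) = (P211.lcOf h.lc).Rm X Y Z W x :=
    fun X Y Z W => (hR X Y Z W x).trans (congrFun (P211.riem_eq h.lc X Y Z W) x)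
  refine ⟨fun a b c d => ?_, fun a b c d => ?_, fun a b c d => ?_, fun a b c d => ?_⟩ <;>
    obtain ⟨X, rfl⟩ := P211.exists_ext (E := E) x a <;>
    obtain ⟨Y, rfl⟩ := P211.exists_ext (E := E) x b <;>
    obtain ⟨Z, rfl⟩ := P211.exists_ext (E := E) x c <;>
    obtain ⟨W, rfl⟩ := P211.exists_ext (E := E) x d <;> simp only [h1]
  · exact DFunLike.congr_fun ((P211.lcOf h.lc).Rm_anti12 X Y Z W) x
  · exact DFunLike.congr_fun ((P211.lcOf h.lc).Rm_anti34 X Y Z W) x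
  · exact DFunLike.congr_fun ((P211.lcOf h.lc).Rm_pair X Y Z W) x
  · exact DFunLike.congr_fun ((P211.lcOf h.lc).Rm_bianchi X Y Z W) x

theorem J_sub {x : M} (v w : Tan E x) : J (v - w) = J v - J w :=
  smul_sub (M := ℂ) (A := E) Complex.I v w

theorem rm_J (h : IsLeviCivita cov) (hR : IsCurv cov R) (hH : Hermitian E M) (hP : ParallelJ cov)
    (x : M) (a b c d : Tan E x) : R x a b (J c) (J d) = R x a b c d := by
  obtain ⟨X, rfl⟩ := P211.exists_ext (E := E) x a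
  obtain ⟨Y, rfl⟩ := P211.exists_ext (E := E) x b
  obtain ⟨Z, rfl⟩ := P211.exists_ext (E := E) x c
  obtain ⟨W, rfl⟩ := P211.exists_ext (E := E) x d
  have h1 := hR X Y ⟨fun q => J (Z q), fun q => sm_J (Z.contMDiff q)⟩
    ⟨fun q => J (W q), fun q => sm_J (W.contMDiff q)⟩ x
  refine h1.trans (Eq.trans ?_ (hR X Y Z W x).symm)
  have h2 : ∀ (U : Vec E M) v, cov (fun q => cov (fun q => J (Z q)) q (U q)) x v =
      J (cov (fun q => cov Z q (U q)) x v) := fun U v => by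
    rw [show (fun q => cov (fun q => J (Z q)) q (U q)) = fun q => J (cov Z q (U q)) from
      funext fun q => hP Z q _]
    exact hP (P211.nabVF cov h.smooth U Z) x v
  unfold curv
  rw [← hH x _ (W x), J_sub, J_sub, ← h2, ← h2, ← hP]
  rfl

theorem pos_iff (h : IsLeviCivita cov) (hR : IsCurv cov R) (hH : Hermitian E M) (hC : Closed E M) :
    PosBisec R ↔ PosBisecC R := by
  have key : ∀ (x : M) (X Y : Fin 2 → Tan E x), T10 X → T10 Y → evC (R x) X (bar X) Y (bar Y) =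
      (4 * (ev (R x) (X 0) (Y 0) (Y 0) (X 0) + ev (R x) (X 0) (J (Y 0)) (J (Y 0)) (X 0)) : ℝ) := by
    intro x X Y hX hY
    obtain ⟨s1, s2, s3, s4⟩ := rm_symm h hR x
    have s5 := rm_J h hR hH (par_of_cl h hH hC) x
    have e1 : X 1 = -J (X 0) := by rw [hX.1, neg_neg]
    have e2 : Y 1 = -J (Y 0) := by rw [hY.1, neg_neg]
    have z1 : ∀ a c d, R x a a c d = 0 := fun a c d => by linarith [s1 a a c d]
    have z2 : ∀ a b c, R x a b c c = 0 := fun a b c => by linarith [s2 a b c c]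
    generalize hu : X 0 = u at e1
    generalize hv : Y 0 = v at e2
    have t1 := s4 u (J u) (J v) v
    have t2 : R x (J u) (J v) u v = -R x u v v u := by rw [s3, s5, s2]
    have t3 : R x (J v) u (J u) v = -R x u (J v) (J v) u := by
      rw [← s5, J_J, map_neg, LinearMap.neg_apply, s1, s2, neg_neg]
    simp only [evC, bar, ev, Fin.sum_univ_two, Matrix.cons_val_zero, Matrix.cons_val_one, hu, hv,
      e1, e2, neg_neg, map_neg, LinearMap.neg_apply, z1, z2, s1 (J u) u, s2 u (J u) v]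
    rw [show R x u v v u + R x u (J v) (J v) u = R x u (J u) (J v) v by linarith]
    simp [pow_succ]
    ring
  constructor
  · intro hP x X Y hX hY h1 h2
    have h0 : ∀ X : Fin 2 → Tan E x, T10 X → X ≠ 0 → 0 < ‖X 0‖ := fun X hX h1 =>
      norm_pos_iff.2 fun h3 => h1 (funext (Fin.forall_fin_two.2 ⟨h3, by
        have h4 := J_J (X 1)
        rw [hX.2, h3] at h4
        exact neg_eq_zero.1 (h4.symm.trans (smul_zero (M := ℂ) (A := E) Complex.I))⟩))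
    have h3 : ∀ w : Tan E x, 0 < ‖w‖ → ‖‖w‖⁻¹ • w‖ = 1 := fun w hw => by
      rw [norm_smul, norm_inv, norm_norm, inv_mul_cancel₀ hw.ne']
    have h4 := hP x _ _ (h3 _ (h0 X hX h1)) (h3 _ (h0 Y hY h2))
    have h5 := inv_pos.2 (h0 X hX h1)
    have h6 := inv_pos.2 (h0 Y hY h2)
    simp only [ev, J_smul, map_smul, LinearMap.smul_apply, smul_eq_mul] at h4
    rw [← mul_add, ← mul_add, ← mul_add, ← mul_add, mul_pos_iff_of_pos_left h5,
      mul_pos_iff_of_pos_left h6, mul_pos_iff_of_pos_left h6, mul_pos_iff_of_pos_left h5] at h4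
    exact ⟨_, mul_pos four_pos h4, key x X Y hX hY⟩
  · intro hP x u v hu hv
    have h0 : ∀ w : Tan E x, T10 ![w, -J w] := fun w => ⟨(neg_neg _).symm, by
      have h1 := J_smul (-1) (J w)
      rw [J_J] at h1
      simpa using h1⟩
    have h1 : ∀ w : Tan E x, ‖w‖ = 1 → ![w, -J w] ≠ 0 := fun w hw h1 => by
      simp [show w = 0 from congrFun h1 0] at hw
    obtain ⟨r, h2, h3⟩ := hP x _ _ (h0 u) (h0 v) (h1 u hu) (h1 v hv)
    rw [key x _ _ (h0 u) (h0 v), Complex.ofReal_inj] at h3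
    exact (mul_pos_iff_of_pos_left four_pos).1 (h2.trans_eq h3.symm)

end

section

open scoped Manifold ContDiff Topology
open Bundle Filter MvPolynomial Matrix Vale.Agent.P253Z
open Vale.Agent.P272.K (Cm)

theorem poly_diff {n : ℕ} (P : Fin n → MvPolynomial (Fin n) ℂ) :
    ContDiff ℂ 1 fun (z : Cm n) i => eval z (P i) :=
  contDiff_pi.2 fun i => (AnalyticOnNhd.eval_mvPolynomial (P i)).contDiff

variable {n : ℕ} {M : Type} [MetricSpace M] [ChartedSpace (Cm n) M]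
  [IsManifold 𝓘(ℂ, Cm n) 1 M] [IsManifold 𝓘(ℝ, Cm n) ∞ M]
  [RiemannianBundle (fun x : M => TangentSpace 𝓘(ℝ, Cm n) x)]
  [IsContMDiffRiemannianBundle 𝓘(ℝ, Cm n) ∞ (Cm n) (fun x : M => TangentSpace 𝓘(ℝ, Cm n) x)]
  [IsRiemannianManifold 𝓘(ℝ, Cm n) M] [CompleteSpace M] [ConnectedSpace M] [NoncompactSpace M]
  [MeasurableSpace M] [BorelSpace M]

/-- the action in the coordinates `Φ` -/
noncomputable def act (Φ : M ≃ₘ^1⟮𝓘(ℂ, Cm n), 𝓘(ℂ, Cm n)⟯ Cm n) (φ : Gr n M) (z : Cm n) : Cm n :=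
  Φ (φ.1 (Φ.symm z))

variable (Φ : M ≃ₘ^1⟮𝓘(ℂ, Cm n), 𝓘(ℂ, Cm n)⟯ Cm n)

theorem act_one (z : Cm n) : act Φ 1 z = z := Φ.apply_symm_apply z

theorem act_mul (g h : Gr n M) (z : Cm n) : act Φ (g * h) z = act Φ g (act Φ h z) :=
  congrArg (fun y => Φ (g.1 y)) (Φ.symm_apply_apply _).symm

theorem act_cont (z : Cm n) : Continuous fun g => act Φ g z :=
  Φ.continuous.comp (continuous_iff_continuousAt.2 fun _ => tendsto_gr.1 tendsto_id _)

theorem act_app (g : Gr n M) (x : M) : act Φ g (Φ x) = Φ (g.1 x) :=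
  congrArg (fun y => Φ (g.1 y)) (Φ.symm_apply_apply x)

theorem exists_pol (hM : IsYau (Cm n) M) : ∃ Φ : M ≃ₘ^1⟮𝓘(ℂ, Cm n), 𝓘(ℂ, Cm n)⟯ Cm n,
    ∀ g i, ∃ R : MvPolynomial (Fin n) ℂ, ∀ z, act Φ g z i = eval z R := by
  obtain ⟨Ψ⟩ := P253W.yau hM
  have := Ψ.toHomeomorph.contractibleSpace
  obtain ⟨μ, c⟩ := exists_ctx hM.kahler hM.pos
  obtain ⟨p, F, Φ, hΦ⟩ := (P253W.allR n M μ c).uni c
  exact ⟨Φ, fun g => P253Y.H2.pol c F Φ hΦ g.2⟩

theorem exists_lin (hM : IsYau (Cm n) M) : ∃ Φ : M ≃ₘ^1⟮𝓘(ℂ, Cm n), 𝓘(ℂ, Cm n)⟯ Cm n,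
    (∀ g i, ∃ R : MvPolynomial (Fin n) ℂ, ∀ z, act Φ g z i = eval z R) ∧
    ((n ≤ 2 ∨ ∃ H : Subgroup (Equiv.Perm M), (∀ φ ∈ H, HolIsom (Cm n) φ) ∧ IsMulCommutative H ∧
      ∀ h : M → ℂ, MDifferentiable 𝓘(ℂ, Cm n) 𝓘(ℂ, ℂ) h → (∀ φ ∈ H, ∀ x, h (φ x) = h x) →
        ∀ x y, h x = h y) → ∀ g, ∃ U ∈ unitaryGroup (Fin n) ℂ, ∀ z, act Φ g z = U *ᵥ z) := by
  obtain ⟨Φ, h⟩ := exists_pol hM
  have := compact_gr Φ (orbit_bdd hM.kahler hM.pos)
  by_cases h1 : Lin (act Φ)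
  swap
  · refine ⟨Φ, h, fun hn => (h1 ?_).elim⟩
    rcases hn with hn | ⟨H, hH, hc, h2⟩
    · have h0 : 0 < n := npos (M := M)
      obtain rfl | rfl : n = 1 ∨ n = 2 := by omega
      · exact lin_one (act_one Φ) (act_mul Φ) (act_cont Φ) h
      · exact lin_two (act_one Φ) (act_mul Φ) (act_cont Φ) h
    · let _ : CommGroup H := { (inferInstance : Group H) with mul_comm := hc.is_comm.comm }
      refine lin_attr (A := H) (act_one Φ) (act_mul Φ) (act_cont Φ) h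
        ⟨⟨fun φ => ⟨φ, (hH _ φ.2).1, (hH _ φ.2).2.1, (hH _ φ.2).2.2⟩, rfl⟩, fun _ _ => rfl⟩
        fun R hR => ⟨eval 0 R, MvPolynomial.funext fun z => ?_⟩
      simpa using h2 (fun x => eval (Φ x) R)
        ((((AnalyticOnNhd.eval_mvPolynomial R).contDiff (n := 1)).differentiable
          one_ne_zero).mdifferentiable.comp (Φ.contMDiff.mdifferentiable one_ne_zero))
        (fun φ hφ x => by rw [← hR ⟨φ, hφ⟩ (Φ x), act_app]; rfl) (Φ.symm z) (Φ.symm 0)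
  obtain ⟨P, Q, h2, h3, h4⟩ := h1
  let Ψ : Cm n ≃ₘ^1⟮𝓘(ℂ, Cm n), 𝓘(ℂ, Cm n)⟯ Cm n :=
    ⟨⟨fun z i => eval z (P i), fun z i => eval z (Q i), h2, h3⟩, (poly_diff P).contMDiff,
      (poly_diff Q).contMDiff⟩
  have h5 : ∀ g, ∃ U ∈ unitaryGroup (Fin n) ℂ, ∀ z, act (Φ.trans Ψ) g z = U *ᵥ z := fun g => by
    obtain ⟨U, h5, h6⟩ := h4 g
    exact ⟨U, h5, fun z => (h6 _).trans (congrArg _ (h3 z))⟩
  refine ⟨Φ.trans Ψ, fun g i => ?_, fun _ => h5⟩
  obtain ⟨U, -, h6⟩ := h5 g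
  exact ⟨∑ j, C (U i j) * X j, fun z => by simp [h6, mulVec, dotProduct]⟩

theorem isom_main (hM : IsYau (Cm n) M) : ∃ Φ : M ≃ₘ^1⟮𝓘(ℂ, Cm n), 𝓘(ℂ, Cm n)⟯ Cm n,
    IsCompact {f : C(M, M) | ∃ φ, HolIsom (Cm n) φ ∧ ∀ x, f x = φ x} ∧
    (∃ (N : ℕ) (P : Fin N → MvPolynomial (Fin n) ℂ) (L : Matrix (Fin n) (Fin N) ℂ),
      LinearIndependent ℂ P ∧ (∀ z, L *ᵥ (fun k => eval z (P k)) = z) ∧
      ∀ φ : Equiv.Perm M, HolIsom (Cm n) φ → ∃ U ∈ unitaryGroup (Fin N) ℂ,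
        ∀ x, (fun k => eval (Φ (φ x)) (P k)) = U *ᵥ fun k => eval (Φ x) (P k)) ∧
    ((n ≤ 2 ∨ ∃ H : Subgroup (Equiv.Perm M), (∀ φ ∈ H, HolIsom (Cm n) φ) ∧ IsMulCommutative H ∧
      ∀ h : M → ℂ, MDifferentiable 𝓘(ℂ, Cm n) 𝓘(ℂ, ℂ) h → (∀ φ ∈ H, ∀ x, h (φ x) = h x) →
        ∀ x y, h x = h y) → ∀ φ : Equiv.Perm M, HolIsom (Cm n) φ →
      ∃ U ∈ unitaryGroup (Fin n) ℂ, ∀ x, Φ (φ x) = U *ᵥ Φ x) ∧
    ∀ H : Subgroup (Equiv.Perm M), (∀ φ ∈ H, HolIsom (Cm n) φ) →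
      (∀ p : ℕ, p.Prime → IsPGroup p H → ∃ x, ∀ φ ∈ H, φ x = x) ∧
      (IsMulCommutative H → ∃ x, {y | ∃ φ ∈ H, φ x = y}.Finite ∧
        ((∀ φ ∈ H, ∀ m : ℕ, 0 < m → ∃ ψ ∈ H, ψ ^ m = φ) → ∀ φ ∈ H, φ x = x)) := by
  obtain ⟨Φ, h1, h2⟩ := exists_lin hM
  have := compact_gr Φ (orbit_bdd hM.kahler hM.pos)
  have hR := rep (act_one Φ) (act_mul Φ) (act_cont Φ) h1 X
  let G : ∀ φ : Equiv.Perm M, HolIsom (Cm n) φ → Gr n M := fun φ h => ⟨φ, h.1, h.2.1, h.2.2⟩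
  refine ⟨Φ, ?_, ?_, fun hn φ h => ?_, fun H hH => ⟨fun p hp h => ?_, fun h => ?_⟩⟩
  · let c : Gr n M → C(M, M) := fun g => ⟨g.1, g.2.hol.continuous⟩
    have h3 : Continuous c := ContinuousMap.continuous_of_continuous_uncurry c
      (continuous_iff_continuousAt.2 fun a => by
        rw [ContinuousAt, nhds_prod_eq]
        exact cont_conv (φ := fun i : Gr n M => i.1) (fun i => Iso.dist_le i.2)
          (tendsto_gr.1 tendsto_id) a.2)
    have h4 : {f : C(M, M) | ∃ φ, HolIsom (Cm n) φ ∧ ∀ x, f x = φ x} = Set.range c :=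
      Set.ext fun f => ⟨fun ⟨φ, h, h'⟩ => ⟨G φ h, ContinuousMap.ext fun x => (h' x).symm⟩,
        fun ⟨g, h⟩ => ⟨g.1, ⟨g.2.1, g.2.2, g.2.3⟩, fun _ => h ▸ rfl⟩⟩
    exact h4 ▸ isCompact_range h3
  · obtain ⟨N, P, L, h3, h4, h5⟩ := hR.model
    refine ⟨N, P, L, h3, h4, fun φ h => ?_⟩
    obtain ⟨U, h6, h7⟩ := h5 (G φ h)
    exact ⟨U, h6, fun x => by rw [← h7, act_app]⟩
  · obtain ⟨U, h6, h7⟩ := h2 hn (G φ h)
    exact ⟨U, h6, fun x => by rw [← h7, act_app]⟩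
  · obtain ⟨z, hz⟩ := pfix hp h (fun φ : H => act Φ (G φ (hH _ φ.2))) (act_one Φ)
      (fun a b => act_mul Φ (G a (hH _ a.2)) (G b (hH _ b.2))) fun _ => h1 _
    exact ⟨Φ.symm z, fun φ hφ => Φ.injective ((hz ⟨φ, hφ⟩).trans (Φ.apply_symm_apply z).symm)⟩
  · let _ : CommGroup H := { (inferInstance : Group H) with mul_comm := h.is_comm.comm }
    obtain ⟨z, hz⟩ := (hR.comp fun φ : H => G φ (hH _ φ.2)).orbit (act_one Φ)
      fun a b => act_mul Φ (G a (hH _ a.2)) (G b (hH _ b.2))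
    have h3 : (MulAction.orbit H (Φ.symm z)).Finite := (hz.image Φ.symm).subset (by
      rintro _ ⟨φ, rfl⟩
      exact ⟨_, ⟨φ, rfl⟩, Φ.symm_apply_apply _⟩)
    refine ⟨Φ.symm z, h3.subset fun _ ⟨φ, h4, h5⟩ => ⟨⟨φ, h4⟩, h5⟩, fun hd φ hφ => ?_⟩
    obtain ⟨ψ, h4, rfl⟩ := hd φ hφ (MulAction.stabilizer H (Φ.symm z)).index (by
      rw [MulAction.index_stabilizer]
      exact (Set.ncard_pos h3).2 (MulAction.nonempty_orbit _))
    exact (MulAction.stabilizer H (Φ.symm z)).pow_index_mem ⟨ψ, h4⟩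

end

open scoped Manifold ContDiff
open MvPolynomial Vale.Agent.P253K

theorem main (n : ℕ) (M : Type) [TopologicalSpace M] [T2Space M] [ConnectedSpace M]
    [ChartedSpace (Fin n → ℂ) M] [IsManifold 𝓘(ℂ, Fin n → ℂ) 1 M] :
    RealSmooth (Fin n → ℂ) M ∧ JChart (Fin n → ℂ) M ∧
    ∀ [RealSmooth (Fin n → ℂ) M] [Met (Fin n → ℂ) M] [SmoothMet (Fin n → ℂ) M],
      (∃ cov : Conn (Fin n → ℂ) M, IsLeviCivita cov ∧ ∃ Rm, IsCurv cov Rm) ∧
      ∀ cov : Conn (Fin n → ℂ) M, IsLeviCivita cov → ∀ Rm, IsCurv cov Rm →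
        Hermitian (Fin n → ℂ) M → Closed (Fin n → ℂ) M →
        (PosBisec Rm ↔ PosBisecC Rm) ∧
        (Complete (Fin n → ℂ) M → NoncompactSpace M → PosBisec Rm →
          ∃ F : M ≃ₘ^1⟮𝓘(ℂ, Fin n → ℂ), 𝓘(ℂ, Fin n → ℂ)⟯ (Fin n → ℂ), Act (Fin n → ℂ) F) := by
  refine ⟨realSmooth, fun e he x hx v => chart_J he hx v, ?_⟩
  intro _ _ hs
  refine ⟨exists_lc.imp fun cov h => ⟨h, (curv_exu h).exists⟩, fun cov h Rm hR hH hC => ?_⟩
  obtain ⟨mM, rfl, rM⟩ := with_metric (E := Fin n → ℂ) (M := M)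
  have hd : IsRiemannianManifold 𝓘(ℝ, Fin n → ℂ) M := ⟨rM⟩
  refine ⟨pos_iff h hR hH hC, fun hc hn hP => ?_⟩
  have := complete_of hc
  borelize M
  exact isom_main
    { complex := inferInstance
      smooth := hs
      dist := hd
      complete := this
      connected := inferInstance
      noncompact := hn
      kahler := isKahler h hH hC
      pos := posBisec h hR hP }

end Vale.Agent.N253
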