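import Vale.Agent.N253.Fix

/-!
# Compact groups of polynomial maps: bounded degree and an invariant scalar product
-/

open MvPolynomial Matrix MeasureTheory
open scoped ComplexConjugate

namespace Vale.Agent.N253

variable {n : ℕ} {K ι : Type}

/-- the polynomials `S i` lie in a finite-dimensional invariant space of polynomials with an
invariant scalar product -/
def Rep (f : K → (Fin n → ℂ) → Fin n → ℂ) (S : ι → MvPolynomial (Fin n) ℂ) : Prop :=
  ∃ (W : Type) (_ : NormedAddCommGroup W) (_ : InnerProductSpace ℂ W) (_ : FiniteDimensional ℂ W)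
    (j : W →ₗ[ℂ] MvPolynomial (Fin n) ℂ) (ρ : K → W →ₗ[ℂ] W), Function.Injective j ∧
    (∀ i, ∃ w, j w = S i) ∧ (∀ g w z, eval z (j (ρ g w)) = eval (f g z) (j w)) ∧
    ∀ g v w, inner ℂ (ρ g v) (ρ g w) = inner ℂ v w

theorem exists_points (V : Submodule ℂ (MvPolynomial (Fin n) ℂ)) [FiniteDimensional ℂ V] :
    ∃ Z : Finset (Fin n → ℂ), ∀ R ∈ V, (∀ z ∈ Z, eval z R = 0) → R = 0 := by
  classical
  let W : Finset (Fin n → ℂ) → Submodule ℂ V := fun Z =>
    { carrier := {R | ∀ z ∈ Z, eval z R.1 = 0}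
      zero_mem' := fun _ _ => map_zero _
      add_mem' := fun ha hb z hz => by rw [Submodule.coe_add, map_add, ha z hz, hb z hz, add_zero]
      smul_mem' := fun c _ ha z hz => by rw [Submodule.coe_smul, smul_eval, ha z hz, mul_zero] }
  obtain ⟨Z, hZ⟩ := (wellFounded_lt.onFun (f := fun Z => Module.finrank ℂ (W Z))).has_min
    Set.univ ⟨∅, trivial⟩
  refine ⟨Z, fun R hR h => MvPolynomial.funext fun z => ?_⟩
  by_contra hz
  refine hZ.2 (insert z Z) trivial (Submodule.finrank_lt_finrank_of_lt (lt_of_le_of_ne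
    (fun S hS y hy => hS y (Finset.mem_insert_of_mem hy)) fun h1 => hz ?_))
  have h2 : (⟨R, hR⟩ : V) ∈ W (insert z Z) := h1 ▸ h
  rw [map_zero]
  exact h2 z (Finset.mem_insert_self _ _)

section

variable [Group K] [TopologicalSpace K] [IsTopologicalGroup K] [CompactSpace K] [Fintype ι]

theorem fin_dim {f : K → (Fin n → ℂ) → Fin n → ℂ} (hc : ∀ z, Continuous fun g => f g z)
    {T : K → MvPolynomial (Fin n) ℂ →ₗ[ℂ] MvPolynomial (Fin n) ℂ}
    (hT : ∀ g z R, eval z (T g R) = eval (f g z) R) (Tm : ∀ g h R, T (g * h) R = T h (T g R))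
    (R : ι → MvPolynomial (Fin n) ℂ) :
    FiniteDimensional ℂ (Submodule.span ℂ (Set.range fun x : K × ι => T x.1 (R x.2))) := by
  let S : ℕ → Set K := fun d => ⋂ i, (fun g z => eval (f g z) (R i)) ⁻¹'
    ((restrictTotalDegree (Fin n) ℂ d).map (evalₗ ℂ (Fin n)) : Set ((Fin n → ℂ) → ℂ))
  have h1 : ∀ d, IsClosed (S d) := fun d => isClosed_iInter fun i =>
    (Submodule.closed_of_finiteDimensional _).preimage
      (continuous_pi fun z => (continuous_eval _).comp (hc z))
  have h2 : ∀ d g, g ∈ S d ↔ ∀ i, T g (R i) ∈ restrictTotalDegree (Fin n) ℂ d := fun d g => by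
    refine Set.mem_iInter.trans (forall_congr' fun i => ⟨?_, fun h => ⟨_, h, ?_⟩⟩)
    · rintro ⟨Q, hQ, h⟩
      rwa [← MvPolynomial.funext (p := Q) (q := T g (R i)) fun z =>
        (congrFun h z).trans (hT g z _).symm]
    · exact funext fun z => hT g z _
  obtain ⟨d, g₀, hg₀⟩ := nonempty_interior_of_iUnion_of_closed h1 (Set.eq_univ_of_forall fun g =>
    Set.mem_iUnion.2 ⟨∑ i, (T g (R i)).totalDegree, (h2 _ g).2 fun i =>
      (mem_restrictTotalDegree _ _ _).2 (Finset.single_le_sum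
        (f := fun i => (T g (R i)).totalDegree) (fun _ _ => Nat.zero_le _) (Finset.mem_univ i))⟩)
  obtain ⟨U, hU⟩ := isCompact_univ.elim_finite_subcover (fun h : K => (· * h) ⁻¹' interior (S d))
    (fun h => isOpen_interior.preimage (continuous_mul_const h))
    fun x _ => Set.mem_iUnion.2 ⟨x⁻¹ * g₀, by simpa using hg₀⟩
  refine Submodule.finiteDimensional_of_le (S₂ := ⨆ h : U,
    (restrictTotalDegree (Fin n) ℂ d).map (T h.1⁻¹)) (Submodule.span_le.2 ?_)
  rintro _ ⟨⟨x, i⟩, rfl⟩
  obtain ⟨h, hh, hx⟩ := Set.mem_iUnion₂.1 (hU (Set.mem_univ x))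
  refine Submodule.mem_iSup_of_mem ⟨h, hh⟩ ⟨_, (h2 d _).1 (interior_subset hx) i, ?_⟩
  exact (Tm _ _ _).symm.trans (by rw [mul_inv_cancel_right])

theorem rep {f : K → (Fin n → ℂ) → Fin n → ℂ} (f1 : ∀ z, f 1 z = z)
    (fm : ∀ g h z, f (g * h) z = f g (f h z)) (hc : ∀ z, Continuous fun g => f g z)
    (hf : ∀ g i, ∃ R : MvPolynomial (Fin n) ℂ, ∀ z, f g z i = eval z R)
    (S : ι → MvPolynomial (Fin n) ℂ) : Rep f S := by
  choose P hP using hf
  obtain ⟨T, hb⟩ : ∃ T : K → MvPolynomial (Fin n) ℂ →ₗ[ℂ] MvPolynomial (Fin n) ℂ,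
      ∀ g z R, eval z (T g R) = eval (f g z) R :=
    ⟨fun g => (bind₁ (P g)).toLinearMap, fun g z R => by
      rw [funext fun j => hP g j z]
      exact eval_bind z (P g) R⟩
  have Tm : ∀ g h R, T (g * h) R = T h (T g R) := fun g h R =>
    MvPolynomial.funext fun z => by rw [hb, hb, hb, fm]
  have := fin_dim hc hb Tm S
  set V := Submodule.span ℂ (Set.range fun x : K × ι => T x.1 (S x.2))
  have hV : ∀ g, ∀ R ∈ V, T g R ∈ V := fun g => by
    change V ≤ V.comap _
    refine Submodule.span_le.2 ?_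
    rintro _ ⟨⟨x, i⟩, rfl⟩
    exact Submodule.subset_span ⟨(x * g, i), Tm x g _⟩
  obtain ⟨Z, hZ⟩ := exists_points V
  borelize K
  let μ : Measure K := Measure.haar
  let B : V → V → K → ℂ := fun R S g => ∑ z ∈ Z, conj (eval (f g z) R.1) * eval (f g z) S.1
  have hB : ∀ R S, Continuous (B R S) := fun R S => continuous_finsetSum _ fun z _ =>
    (Complex.continuous_conj.comp ((continuous_eval _).comp (hc z))).mul
      ((continuous_eval _).comp (hc z))
  have hi : ∀ R S, Integrable (B R S) μ := fun R S =>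
    (hB R S).integrable_of_hasCompactSupport (HasCompactSupport.of_compactSpace _)
  have hre : ∀ R g, B R R g = ((∑ z ∈ Z, Complex.normSq (eval (f g z) R.1) : ℝ) : ℂ) :=
    fun R g => by simp only [B, Complex.ofReal_sum, Complex.normSq_eq_conj_mul_self]
  have hq : ∀ R : V, Continuous fun g => ∑ z ∈ Z, Complex.normSq (eval (f g z) R.1) := fun R =>
    continuous_finsetSum _ fun z _ => Complex.continuous_normSq.comp
      ((continuous_eval _).comp (hc z))
  have hq0 : ∀ (R : V) g, 0 ≤ ∑ z ∈ Z, Complex.normSq (eval (f g z) R.1) := fun R g =>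
    Finset.sum_nonneg fun _ _ => Complex.normSq_nonneg _
  let c : InnerProductSpace.Core ℂ V :=
    { inner := fun R S => ∫ g, B R S g ∂μ
      conj_inner_symm := fun R S => by
        rw [← integral_conj]
        simp only [B, map_sum, map_mul, Complex.conj_conj, mul_comm]
      re_inner_nonneg := fun R => by
        simp only [hre, integral_complex_ofReal, RCLike.re_to_complex, Complex.ofReal_re]
        exact integral_nonneg (hq0 R)
      add_left := fun R S T => by
        rw [← integral_add (hi R T) (hi S T)]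
        simp only [B, Submodule.coe_add, map_add, add_mul, Finset.sum_add_distrib]
      smul_left := fun R S r => by
        rw [← integral_const_mul]
        simp only [B, Submodule.coe_smul, smul_eval, map_mul, Finset.mul_sum, mul_assoc]
      definite := fun R h => by
        simp only [hre, integral_complex_ofReal, Complex.ofReal_eq_zero] at h
        have h1 := not_not.1 fun h1 => ((hq R).integral_pos_of_hasCompactSupport_nonneg_nonzero
          (μ := μ) (x := 1) (HasCompactSupport.of_compactSpace _) (hq0 R) h1).ne' h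
        refine Subtype.ext (hZ R R.2 fun z hz => ?_)
        have h2 := (Finset.sum_eq_zero_iff_of_nonneg fun _ _ => Complex.normSq_nonneg _).1 h1 z hz
        rwa [f1, Complex.normSq_eq_zero] at h2 }
  refine ⟨V, c.toNormedAddCommGroup, InnerProductSpace.ofCore c.toCore, this, V.subtype,
    fun g => (T g).restrict (hV g), V.injective_subtype, fun i => ⟨⟨S i, Submodule.subset_span
      ⟨(1, i), MvPolynomial.funext fun z => by rw [hb, f1]⟩⟩, rfl⟩, fun g w z => hb g z w, ?_⟩
  intro g v w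
  refine Eq.trans ?_ (integral_mul_left_eq_self (μ := μ) (B v w) g)
  refine congrArg (integral μ) (funext fun x => Finset.sum_congr rfl fun z _ => ?_)
  rw [fm, ← hb g, ← hb g]
  rfl

end

open Module

variable {f : K → (Fin n → ℂ) → Fin n → ℂ}

theorem left_inv {W : Type} [Fintype ι] [AddCommGroup W] [Module ℂ W]
    (j : W →ₗ[ℂ] MvPolynomial (Fin n) ℂ) (hX : ∀ i, ∃ w, j w = X i) (b : Basis ι ℂ W) :
    ∃ L : Matrix (Fin n) ι ℂ, ∀ z, L *ᵥ (fun k => eval z (j (b k))) = z := by
  choose w hw using hX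
  refine ⟨fun i k => b.repr (w i) k, fun z => funext fun i => ?_⟩
  have h := congrArg (fun v => eval z (j v)) (b.sum_repr (w i))
  simp only [map_sum, map_smul, smul_eval, hw, eval_X] at h
  exact h

theorem unit_mat {W : Type} [NormedAddCommGroup W] [InnerProductSpace ℂ W] [Fintype ι]
    [DecidableEq ι] (b : OrthonormalBasis ι ℂ W) {T : W → W}
    (hT : ∀ v w, inner ℂ (T v) (T w) = inner ℂ v w) :
    ∃ U ∈ unitaryGroup ι ℂ, ∀ k, T (b k) = ∑ l, U k l • b l := by
  refine ⟨Matrix.of fun k l => inner ℂ (b l) (T (b k)), mem_unitaryGroup_iff.2 ?_,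
    fun k => (b.sum_repr' _).symm⟩
  ext k l
  have h1 := b.sum_inner_mul_inner (T (b l)) (T (b k))
  rw [hT, orthonormal_iff_ite.1 b.orthonormal] at h1
  simp only [mul_apply, star_apply, of_apply, one_apply, RCLike.star_def, inner_conj_symm]
  rw [Finset.sum_congr rfl fun x _ => mul_comm _ _, h1]
  simp only [eq_comm]

theorem Rep.model (h : Rep f X) : ∃ (N : ℕ) (P : Fin N → MvPolynomial (Fin n) ℂ)
    (L : Matrix (Fin n) (Fin N) ℂ), LinearIndependent ℂ P ∧
    (∀ z, L *ᵥ (fun k => eval z (P k)) = z) ∧ ∀ g, ∃ U ∈ unitaryGroup (Fin N) ℂ,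
      ∀ z, (fun k => eval (f g z) (P k)) = U *ᵥ fun k => eval z (P k) := by
  obtain ⟨W, _, _, _, j, ρ, hj, hX, hρ, hi⟩ := h
  let b := stdOrthonormalBasis ℂ W
  obtain ⟨L, hL⟩ := left_inv j hX b.toBasis
  refine ⟨_, fun k => j (b k), L,
    b.toBasis.linearIndependent.map' j (LinearMap.ker_eq_bot.2 hj), hL, fun g => ?_⟩
  obtain ⟨U, h1, h2⟩ := unit_mat b (hi g)
  refine ⟨U, h1, fun z => funext fun k => ?_⟩
  simp only [← hρ, h2, map_sum, map_smul, smul_eval]
  rfl

theorem eig_basis [CommGroup K] {W : Type} [NormedAddCommGroup W] [InnerProductSpace ℂ W]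
    [FiniteDimensional ℂ W] {j : W →ₗ[ℂ] MvPolynomial (Fin n) ℂ} {ρ : K → W →ₗ[ℂ] W}
    (f1 : ∀ z, f 1 z = z) (fm : ∀ g h z, f (g * h) z = f g (f h z)) (hj : Function.Injective j)
    (hρ : ∀ g w z, eval z (j (ρ g w)) = eval (f g z) (j w))
    (hi : ∀ g v w, inner ℂ (ρ g v) (ρ g w) = inner ℂ v w) :
    ∃ (ι : Type) (_ : Fintype ι) (b : Basis ι ℂ W) (χ : ι → K →* ℂˣ),
      ∀ g k, ρ g (b k) = (χ k g : ℂ) • b k := by
  have r1 : ∀ v, ρ 1 v = v := fun v => hj (MvPolynomial.funext fun z => by rw [hρ, f1])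
  have rm : ∀ g h v, ρ (g * h) v = ρ h (ρ g v) := fun g h v =>
    hj (MvPolynomial.funext fun z => by rw [hρ, hρ, hρ, fm])
  have ra : ∀ g v w, inner ℂ (ρ g v) w = inner ℂ v (ρ g⁻¹ w) := fun g v w => by
    rw [← hi g v, ← rm, inv_mul_cancel, r1]
  have rc : ∀ g h, Commute (ρ g) (ρ h) := fun g h => LinearMap.ext fun v => by
    rw [End.mul_apply, End.mul_apply, ← rm, ← rm, mul_comm]
  let T : K × Bool → W →ₗ[ℂ] W := fun x =>
    if x.2 then ρ x.1 + ρ x.1⁻¹ else Complex.I • (ρ x.1 - ρ x.1⁻¹)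
  have hT : ∀ x, (T x).IsSymmetric := by
    rintro ⟨g, _ | _⟩ v w
    · simp only [T, Bool.false_eq_true, if_false, LinearMap.smul_apply, LinearMap.sub_apply,
        inner_smul_left, inner_smul_right, inner_sub_left, inner_sub_right, ra, inv_inv,
        Complex.conj_I]
      ring
    · simp only [T, if_true, LinearMap.add_apply, inner_add_left, inner_add_right, ra, inv_inv]
      ring
  have hc : ∀ x g, Commute (T x) (ρ g) := by
    rintro ⟨g, _ | _⟩ h
    · exact ((rc _ _).sub_left (rc _ _)).smul_left _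
    · exact (rc _ _).add_left (rc _ _)
  have h1 := LinearMap.IsSymmetric.iSup_iInf_eq_top_of_commute hT (by
    rintro x ⟨g, _ | _⟩ -
    · exact ((hc _ _).sub_right (hc _ _)).smul_right _
    · exact (hc _ _).add_right (hc _ _))
  let E : Set W := {v | ∀ g, ∃ c : ℂ, ρ g v = c • v}
  have h2 : ⊤ ≤ Submodule.span ℂ E := by
    rw [← h1]
    refine iSup_le fun χ v hv => Submodule.subset_span fun g => ?_
    have h3 := End.mem_eigenspace_iff.1 ((Submodule.mem_iInf _).1 hv (g, true))
    have h4 := End.mem_eigenspace_iff.1 ((Submodule.mem_iInf _).1 hv (g, false))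
    simp only [T, if_true, Bool.false_eq_true, if_false, LinearMap.add_apply, LinearMap.smul_apply,
      LinearMap.sub_apply] at h3 h4
    refine ⟨(χ (g, true) - Complex.I * χ (g, false)) / 2, ?_⟩
    have h5 := congrArg (fun w => Complex.I • w) h4
    simp only [smul_smul, Complex.I_mul_I] at h5
    linear_combination (norm := module) (1 / 2 : ℂ) • h3 - (1 / 2 : ℂ) • h5
  let b := Basis.ofSpan h2
  have hb : ∀ k, b k ∈ E := fun k => Basis.ofSpan_subset h2 ⟨k, rfl⟩
  choose c hc' using hb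
  exact ⟨_, FiniteDimensional.fintypeBasisIndex b, b, fun k => MonoidHom.toHomUnits
    { toFun := c k
      map_one' := smul_left_injective ℂ (b.ne_zero k) (by simp only [← hc', r1, one_smul])
      map_mul' := fun g h => smul_left_injective ℂ (b.ne_zero k) (by
        simp only [← hc' k (g * h), rm, hc' k g, map_smul, hc' k h, smul_smul]) },
    fun g k => hc' k g⟩

theorem Rep.orbit [CommGroup K] (h : Rep f X) (f1 : ∀ z, f 1 z = z)
    (fm : ∀ g h z, f (g * h) z = f g (f h z)) : ∃ z, (Set.range fun g => f g z).Finite := by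
  classical
  obtain ⟨W, _, _, _, j, ρ, hj, hX, hρ, hi⟩ := h
  obtain ⟨ι, _, b, χ, hχ⟩ := eig_basis f1 fm hj hρ hi
  obtain ⟨L, hL⟩ := left_inv j hX b
  have h6 : ∀ g z k, eval (f g z) (j (b k)) = χ k g * eval z (j (b k)) := fun g z k => by
    rw [← hρ, hχ, map_smul, smul_eval]
  obtain ⟨z, hz⟩ := diag (fun k => j (b k)) L hL χ fun g z => ⟨f g z, h6 g z⟩
  have h7 : ∀ k, (Set.range fun g => χ k g * eval z (j (b k))).Finite := fun k => by
    by_cases h0 : eval z (j (b k)) = 0
    · exact (Set.finite_singleton 0).subset (by rintro _ ⟨g, rfl⟩; simp [h0])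
    · obtain ⟨m, hm, h8⟩ := isOfFinOrder_iff_pow_eq_one.1 (hz k h0)
      refine (((Polynomial.nthRoots m (1 : ℂ)).toFinset.finite_toSet).image
        (· * eval z (j (b k)))).subset ?_
      rintro _ ⟨g, rfl⟩
      refine ⟨χ k g, ?_, rfl⟩
      rw [Finset.mem_coe, Multiset.mem_toFinset, Polynomial.mem_nthRoots hm]
      exact congrArg Units.val (DFunLike.congr_fun h8 g)
  refine ⟨z, ((Set.Finite.pi' h7).image (L *ᵥ ·)).subset ?_⟩
  rintro _ ⟨g, rfl⟩
  exact ⟨fun k => eval (f g z) (j (b k)), fun k => ⟨g, (h6 g z k).symm⟩, hL _⟩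

theorem Rep.comp (h : Rep f X) {H : Type} (u : H → K) : Rep (fun g => f (u g)) X := by
  obtain ⟨W, _, _, _, j, ρ, hj, hX, hρ, hi⟩ := h
  exact ⟨W, _, _, inferInstance, j, fun g => ρ (u g), hj, hX, fun _ => hρ _, fun _ => hi _⟩

end Vale.Agent.N253
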